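import Vale.Agent.P143.Bdl.B1

/-!
Independent noise on a countable set with an action of a group with finite stabilizers, as an
equivariant function of independent labels on the group.
-/

namespace Vale.Agent.P143.H536

open MeasureTheory ProbabilityTheory Measure Vale.Agent.P143

section Orb

variable {Γ E : Type*} [Group Γ] [MulAction Γ E]

/-- the chosen representative of the orbit of `e` -/
noncomputable def rep (Γ : Type*) {E : Type*} [Group Γ] [MulAction Γ E] (e : E) : E :=
  Quotient.out (Quotient.mk (MulAction.orbitRel Γ E) e)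

theorem rep_smul (γ : Γ) (e : E) : rep Γ (γ • e) = rep Γ e := by
  unfold rep
  congr 1
  exact Quotient.sound ⟨γ, rfl⟩

theorem exists_smul_rep (e : E) : ∃ γ : Γ, γ • rep Γ e = e := by
  obtain ⟨γ, hγ⟩ := Quotient.mk_out (s := MulAction.orbitRel Γ E) e
  refine ⟨γ⁻¹, ?_⟩
  unfold rep
  rw [← hγ]
  exact inv_smul_smul γ e

/-- the stabilizers are finite -/
def FinStab (Γ E : Type*) [Group Γ] [MulAction Γ E] : Prop :=
  ∀ e : E, (MulAction.stabilizer Γ e : Set Γ).Finite

theorem finite_cos (h : FinStab Γ E) (e : E) : {γ : Γ | γ • rep Γ e = e}.Finite := by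
  obtain ⟨γ₀, hγ₀⟩ := exists_smul_rep (Γ := Γ) e
  refine ((h e).image fun γ => γ * γ₀).subset ?_
  intro γ hγ
  refine ⟨γ * γ₀⁻¹, ?_, by simp⟩
  have h1 : γ₀⁻¹ • e = rep Γ e := by rw [inv_smul_eq_iff, hγ₀]
  simp only [SetLike.mem_coe, MulAction.mem_stabilizer_iff, mul_smul, h1]
  exact hγ

/-- the elements of the group that move the representative of the orbit of `e` to `e` -/
noncomputable def cos (h : FinStab Γ E) (e : E) : Finset Γ := (finite_cos h e).toFinset

theorem mem_cos (h : FinStab Γ E) (e : E) (γ : Γ) : γ ∈ cos h e ↔ γ • rep Γ e = e := by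
  simp [cos]

theorem cos_nonempty (h : FinStab Γ E) (e : E) : (cos h e).Nonempty := by
  obtain ⟨γ, hγ⟩ := exists_smul_rep (Γ := Γ) e
  exact ⟨γ, (mem_cos h e γ).2 hγ⟩

theorem cos_smul (h : FinStab Γ E) (γ : Γ) (e : E) :
    cos h (γ • e) = (cos h e).map (Equiv.mulLeft γ).toEmbedding := by
  ext x
  rw [mem_cos, rep_smul, Finset.mem_map]
  constructor
  · intro hx
    refine ⟨γ⁻¹ * x, ?_, by simp⟩
    rw [mem_cos, mul_smul, hx, inv_smul_smul]
  · rintro ⟨y, hy, rfl⟩
    rw [mem_cos] at hy
    simp only [Equiv.toEmbedding_apply, Equiv.coe_mulLeft, mul_smul, hy]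

/-- number of the orbit of `e` -/
noncomputable def orbNum (Γ : Type*) {E : Type*} [Group Γ] [MulAction Γ E] [Countable E]
    (e : E) : ℕ :=
  (Countable.exists_injective_nat (Quotient (MulAction.orbitRel Γ E))).choose
    (Quotient.mk (MulAction.orbitRel Γ E) e)

theorem orbNum_smul [Countable E] (γ : Γ) (e : E) : orbNum Γ (γ • e) = orbNum Γ e := by
  have h : Quotient.mk (MulAction.orbitRel Γ E) (γ • e) =
      Quotient.mk (MulAction.orbitRel Γ E) e := Quotient.sound ⟨γ, rfl⟩
  unfold orbNum
  rw [h]

theorem rep_eq_of_orbNum [Countable E] {e f : E} (h : orbNum Γ e = orbNum Γ f) :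
    rep Γ e = rep Γ f := by
  unfold rep
  congr 1
  exact (Countable.exists_injective_nat (Quotient (MulAction.orbitRel Γ E))).choose_spec h

/-- noise of `e` in terms of the decoded labels -/
noncomputable def orbAux [Countable E] (h : FinStab Γ E) (u : Γ → unitInterval)
    (x : Γ → ℕ → ℝ) (e : E) : ℝ := by
  classical
  exact ∑ γ ∈ cos h e, if ∀ γ' ∈ cos h e, u γ' ≤ u γ then x γ (orbNum Γ e) else 0

/-- independent noise on `E` as a function of independent labels on the group -/
noncomputable def orbNoise [Countable E] (κ : Measure ℝ) [IsProbabilityMeasure κ]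
    (h : FinStab Γ E) (U : Γ → unitInterval) (e : E) : ℝ :=
  orbAux h (fun γ => (decode κ (U γ)).1) (fun γ => (decode κ (U γ)).2) e

theorem orbAux_smul [Countable E] (h : FinStab Γ E) (γ : Γ) (u : Γ → unitInterval)
    (x : Γ → ℕ → ℝ) (e : E) :
    orbAux h u x (γ • e) = orbAux h (fun v => u (γ * v)) (fun v => x (γ * v)) e := by
  classical
  unfold orbAux
  rw [cos_smul, Finset.sum_map, orbNum_smul]
  refine Finset.sum_congr rfl fun y _ => ?_
  simp only [Finset.mem_map, forall_exists_index, and_imp, forall_apply_eq_imp_iff₂,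
    Equiv.toEmbedding_apply, Equiv.coe_mulLeft]

theorem orbNoise_smul [Countable E] (κ : Measure ℝ) [IsProbabilityMeasure κ]
    (h : FinStab Γ E) (γ : Γ) (U : Γ → unitInterval) (e : E) :
    orbNoise κ h (fun v => U (γ⁻¹ * v)) e = orbNoise κ h U (γ⁻¹ • e) := by
  unfold orbNoise
  rw [orbAux_smul]

theorem measurable_orbAux [Countable E] (h : FinStab Γ E) (e : E) :
    Measurable fun p : (Γ → unitInterval) × (Γ → ℕ → ℝ) => orbAux h p.1 p.2 e := by
  classical
  unfold orbAux
  refine Finset.measurable_sum _ fun γ _ => ?_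
  refine Measurable.ite ?_ (by fun_prop) measurable_const
  have : {p : (Γ → unitInterval) × (Γ → ℕ → ℝ) | ∀ γ' ∈ cos h e, p.1 γ' ≤ p.1 γ} =
      ⋂ γ' ∈ cos h e, {p | p.1 γ' ≤ p.1 γ} := by
    ext p
    simp only [Set.mem_ofPred_eq, Set.mem_iInter]
  rw [this]
  exact Finset.measurableSet_biInter _ fun γ' _ => measurableSet_le (by fun_prop) (by fun_prop)

theorem measurable_orbNoise [Countable E] (κ : Measure ℝ) [IsProbabilityMeasure κ]
    (h : FinStab Γ E) : Measurable fun U : Γ → unitInterval => orbNoise κ h U := by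
  refine measurable_pi_iff.2 fun e => ?_
  have hd := measurable_decode κ
  exact (measurable_orbAux h e).comp
    (f := fun U : Γ → unitInterval =>
      ((fun v => (decode κ (U v)).1), (fun v => (decode κ (U v)).2))) (by fun_prop)

/-- for injective labels the noise is read off at distinct places -/
theorem exists_place [Countable E] (h : FinStab Γ E) (u : Γ → unitInterval)
    (hu : Function.Injective u) :
    ∃ f : E → Γ × ℕ, Function.Injective f ∧ ∀ (x : Γ → ℕ → ℝ) (e : E),
      orbAux h u x e = x (f e).1 (f e).2 := by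
  classical
  have key : ∀ e : E, ∃ γ ∈ cos h e, ∀ γ' ∈ cos h e, u γ' ≤ u γ := fun e =>
    Finset.exists_max_image (cos h e) u (cos_nonempty h e)
  choose g hg1 hg2 using key
  refine ⟨fun e => (g e, orbNum Γ e), ?_, ?_⟩
  · intro e e' hee
    simp only [Prod.mk.injEq] at hee
    obtain ⟨h1, h2⟩ := hee
    have h3 := (mem_cos h e (g e)).1 (hg1 e)
    have h4 := (mem_cos h e' (g e')).1 (hg1 e')
    rw [← h3, ← h4, h1, rep_eq_of_orbNum h2]
  · intro x e
    unfold orbAux
    rw [Finset.sum_eq_single_of_mem (g e) (hg1 e)]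
    · rw [if_pos (hg2 e)]
    · intro γ hγ hne
      rw [if_neg]
      intro hall
      exact hne (hu (le_antisymm (hg2 e γ hγ) (hall (g e) (hg1 e))))

theorem countable_of_finStab [Countable E] [Nonempty E] (h : FinStab Γ E) : Countable Γ := by
  obtain ⟨e₀⟩ := ‹Nonempty E›
  rw [← Set.countable_univ_iff]
  have : (Set.univ : Set Γ) = ⋃ e : E, {γ : Γ | γ • e₀ = e} := by
    ext γ
    simp
  rw [this]
  refine Set.countable_iUnion fun e => Set.Finite.countable ?_
  by_cases hne : ∃ γ₀ : Γ, γ₀ • e₀ = e
  · obtain ⟨γ₀, rfl⟩ := hne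
    refine ((h e₀).image fun γ => γ₀ * γ).subset fun γ hγ => ?_
    refine ⟨γ₀⁻¹ * γ, ?_, by simp⟩
    have hγ' : γ • e₀ = γ₀ • e₀ := hγ
    simp only [SetLike.mem_coe, MulAction.mem_stabilizer_iff, mul_smul, hγ', inv_smul_smul]
  · refine Set.Finite.subset Set.finite_empty fun γ hγ => hne ⟨γ, hγ⟩

/-- the noise is independent with law `κ` over `E` -/
theorem map_orbNoise [Countable E] (κ : Measure ℝ) [IsProbabilityMeasure κ]
    (h : FinStab Γ E) :
    (infinitePi fun _ : Γ => (volume : Measure unitInterval)).map (fun U => orbNoise κ h U) =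
      infinitePi fun _ : E => κ := by
  rcases isEmpty_or_nonempty E with hE | hE
  · have hp : IsProbabilityMeasure ((infinitePi fun _ : Γ =>
        (volume : Measure unitInterval)).map (fun U => orbNoise κ h U)) :=
      Measure.isProbabilityMeasure_map (measurable_orbNoise κ h).aemeasurable
    ext S hS
    refine Subsingleton.set_cases (p := fun S : Set (E → ℝ) =>
      ((infinitePi fun _ : Γ => (volume : Measure unitInterval)).map
        (fun U => orbNoise κ h U)) S = (infinitePi fun _ : E => κ) S) ?_ ?_ S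
    · simp
    · rw [measure_univ, measure_univ]
  have hΓ : Countable Γ := countable_of_finStab h
  have hd := measurable_decode κ
  have hW : (infinitePi fun _ : Γ => (volume : Measure unitInterval)).map
      (fun U v => decode κ (U v)) =
      infinitePi fun _ : Γ => (volume : Measure unitInterval).prod
        (infinitePi fun _ : ℕ => κ) := by
    rw [infinitePi_map_pi (fun _ : Γ => (volume : Measure unitInterval))
      (f := fun _ => decode κ) (hf := fun _ => hd)]
    simp only [map_decode]
  have hZ := infinitePi_zip (fun _ : Γ => (volume : Measure unitInterval))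
    (fun _ : Γ => infinitePi fun _ : ℕ => κ)
  let F : (Γ → unitInterval) → (Γ → ℕ → ℝ) → E → ℝ := fun u x e => orbAux h u x e
  have hF : Measurable (Function.uncurry F) :=
    measurable_pi_iff.2 fun e => measurable_orbAux h e
  have h1 : (infinitePi fun _ : Γ => (volume : Measure unitInterval)).map
      (fun U => orbNoise κ h U) =
      ((infinitePi fun _ : Γ => (volume : Measure unitInterval)).prod
        (infinitePi fun _ : Γ => infinitePi fun _ : ℕ => κ)).map (Function.uncurry F) := by
    have e1 : (fun U => orbNoise κ h U) =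
        (fun W : Γ → unitInterval × (ℕ → ℝ) => F (fun v => (W v).1) (fun v => (W v).2)) ∘
          (fun (U : Γ → unitInterval) v => decode κ (U v)) := rfl
    have e2 : Function.uncurry F =
        (fun W : Γ → unitInterval × (ℕ → ℝ) => F (fun v => (W v).1) (fun v => (W v).2)) ∘
          (fun (p : (Γ → unitInterval) × (Γ → ℕ → ℝ)) v => (p.1 v, p.2 v)) := rfl
    have hG : Measurable fun W : Γ → unitInterval × (ℕ → ℝ) =>
        F (fun v => (W v).1) (fun v => (W v).2) :=
      hF.comp (f := fun W : Γ → unitInterval × (ℕ → ℝ) =>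
        ((fun v => (W v).1), (fun v => (W v).2))) (by fun_prop)
    rw [e1, e2, ← Measure.map_map hG (by fun_prop), ← Measure.map_map hG (by fun_prop), hW, hZ]
  rw [h1]
  have h2 : ∀ u : Γ → unitInterval, Function.Injective u →
      (infinitePi fun _ : Γ => infinitePi fun _ : ℕ => κ).map (F u) =
        infinitePi fun _ : E => κ := by
    intro u hu
    obtain ⟨f, hf, hfx⟩ := exists_place h u hu
    have e1 : F u = (fun (y : Γ × ℕ → ℝ) (e : E) => y (f e)) ∘
        (MeasurableEquiv.curry Γ ℕ ℝ).symm := by
      ext x e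
      exact hfx x e
    rw [e1, ← Measure.map_map (by fun_prop) (by (clear * -; fun_prop)),
      infinitePi_map_curry_symm (fun _ : Γ => fun _ : ℕ => κ)]
    exact map_infinitePi_infinitePi_of_inj (P := fun _ : Γ × ℕ => κ) hf
  ext S hS
  rw [map_apply hF hS, Measure.prod_apply (hF hS)]
  have h3 : ∀ᵐ u : Γ → unitInterval ∂(infinitePi fun _ : Γ => (volume : Measure unitInterval)),
      (infinitePi fun _ : Γ => infinitePi fun _ : ℕ => κ)
        (Prod.mk u ⁻¹' (Function.uncurry F ⁻¹' S)) = (infinitePi fun _ : E => κ) S := by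
    filter_upwards [ae_injective] with u hu
    have hFu : Measurable (F u) := hF.comp (f := fun x => (u, x)) (by fun_prop)
    rw [← h2 u hu, map_apply hFu hS]
    rfl
  rw [lintegral_congr_ae h3, lintegral_const, measure_univ, mul_one]

end Orb

end Vale.Agent.P143.H536
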