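import Vale.Agent.P143.H536.FlowC
import Vale.Agent.P143.H536.Noise

/-!
From convergent finite priors to factors of independent labels.
-/

namespace Vale.Agent.P143.H536

open MeasureTheory Filter Topology Vale.Agent.P143 Vale.Agent.P143.Lim
  unitInterval

section Conf

variable {E : Type*}

/-- the limiting configuration as a point of `{0,1}^E` -/
noncomputable def conf (a : (E → ℝ) → E → ℝ) (z : E → ℝ) (e : E) : Bool := by
  classical exact decide (e ∈ limitSet a z)

theorem conf_eq_true (a : (E → ℝ) → E → ℝ) (z : E → ℝ) (e : E) :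
    conf a z e = true ↔ e ∈ limitSet a z := by
  simp [conf]

theorem conf_comap {E' : Type*} (i : E' → E) (a : (E → ℝ) → E → ℝ) (a' : (E' → ℝ) → E' → ℝ)
    (h : ∀ w, (∀ f, 0 < w f) → ∀ x, a w (i x) = a' (w ∘ i) x) (z : E → ℝ) (x : E') :
    conf a z (i x) = conf a' (z ∘ i) x := by
  rw [Bool.eq_iff_iff, conf_eq_true, conf_eq_true]
  unfold limitSet
  simp only [Set.mem_ofPred_eq, flow_comap i a a' h]

theorem measurable_conf {Θ : Type*} [MeasurableSpace Θ] [Countable E]
    (a : Θ → (E → ℝ) → E → ℝ) (ha : ∀ θ, IsDrift (a θ))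
    (hm : ∀ e, Measurable fun p : Θ × (E → ℝ) => a p.1 p.2 e) (e : E) :
    Measurable fun p : Θ × (E → ℝ) => conf (a p.1) p.2 e := by
  have h2 : MeasurableSet {p : Θ × (E → ℝ) | e ∈ limitSet (a p.1) p.2} := by
    have : {p : Θ × (E → ℝ) | e ∈ limitSet (a p.1) p.2} =
        ⋃ n : ℕ, ⋂ N : ℕ, ⋂ _ : n ≤ N, {p | (N : ℝ) / 2 ≤ flow (a p.1) N p.2 e} := by
      ext p
      simp only [limitSet, eventually_atTop, Set.mem_ofPred_eq, Set.mem_iUnion, Set.mem_iInter]
    rw [this]
    refine MeasurableSet.iUnion fun n => MeasurableSet.iInter fun N => MeasurableSet.iInter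
      fun _ => measurableSet_le measurable_const (measurable_flow a ha hm N e)
  refine measurable_to_bool ?_
  convert h2 using 1
  ext p
  simp only [Set.mem_preimage, Set.mem_singleton_iff, conf_eq_true, Set.mem_ofPred_eq]

theorem measurable_conf_fixed [Countable E] (a : (E → ℝ) → E → ℝ) (ha : IsDrift a)
    (hm : ∀ e, Measurable fun w : E → ℝ => a w e) : Measurable fun z : E → ℝ => conf a z := by
  refine measurable_pi_iff.2 fun e => ?_
  have h := measurable_conf (Θ := Unit) (fun _ => a) (fun _ => ha)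
    (fun e => (hm e).comp measurable_snd) e
  exact h.comp (f := fun z : E → ℝ => ((), z)) (by fun_prop)

end Conf

section Approx

/-- `a` is the limit of the drifts of finite priors on the subsets of the finite sets `F`, with
inclusion probabilities `D` -/
structure Approx {E : Type*} [DecidableEq E] (a : (E → ℝ) → E → ℝ) (D : Finset E → ℝ) :
    Prop where
  drift : IsDrift a
  meas : ∀ e, Measurable fun w : E → ℝ => a w e
  fin : ∃ q : Finset E → Finset E → ℝ,
    (∀ F, Prior F.powerset (q F)) ∧ (∀ F, IsDrift (upr F.powerset (q F))) ∧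
    (∀ F S, S ⊆ F → ∑ T ∈ F.powerset.filter (fun T => S ⊆ T), q F T =
      D S * ∑ T ∈ F.powerset, q F T) ∧
    ∀ F : ℕ → Finset E, Monotone F → (∀ e, ∃ n, e ∈ F n) →
      ConvDriftB (fun n => upr (F n).powerset (q (F n))) a

variable {E : Type*}

theorem exists_exhaust [Countable E] : ∃ F : ℕ → Finset E, Monotone F ∧ ∀ e, ∃ n, e ∈ F n := by
  obtain ⟨f, hf⟩ := exists_injective_nat E
  have hfin : ∀ n : ℕ, {e : E | f e ≤ n}.Finite := fun n =>
    (Set.finite_le_nat n).preimage hf.injOn
  refine ⟨fun n => (hfin n).toFinset, fun m n hmn e he => ?_, fun e => ⟨f e, by simp⟩⟩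
  simp only [Set.Finite.mem_toFinset, Set.mem_ofPred_eq] at he ⊢
  exact he.trans hmn

theorem measurableSet_incl (S : Finset E) :
    MeasurableSet {x : E → Bool | ∀ e ∈ S, x e = true} := by
  have : {x : E → Bool | ∀ e ∈ S, x e = true} = ⋂ e ∈ S, {x | x e = true} := by
    ext x
    simp only [Set.mem_ofPred_eq, Set.mem_iInter]
  rw [this]
  refine Finset.measurableSet_biInter _ fun e _ => ?_
  have h : MeasurableSet ((fun ω : E → Bool => ω e) ⁻¹' {true}) :=
    measurable_pi_apply e (measurableSet_singleton true)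
  exact h

/-- inclusion probabilities of the limiting configuration -/
theorem Approx.law [Countable E] [DecidableEq E] {a : (E → ℝ) → E → ℝ} {D : Finset E → ℝ}
    (h : Approx a D) {Ω : Type*} [MeasurableSpace Ω] (ℙ : Measure Ω) [IsProbabilityMeasure ℙ]
    (Z : Ω → E → ℝ) (hZ : Measurable Z)
    (hlaw : ℙ.map Z = Measure.infinitePi fun _ : E => logistic) (S : Finset E) :
    (ℙ.map fun ω => conf a (Z ω)).real {x | ∀ e ∈ S, x e = true} = D S := by
  obtain ⟨q, hq, hdr, hD, hconv⟩ := h.fin
  obtain ⟨F, hF, hFe⟩ := exists_exhaust (E := E)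
  have hmar : ∀ S : Finset E, (S : Set E) ⊆ Set.univ →
      Measure.map (fun ω (e : S) => Z ω e) ℙ = Measure.pi fun _ => logistic := by
    intro S _
    have h1 : (fun ω (e : S) => Z ω e) = S.restrict ∘ Z := rfl
    rw [h1, ← Measure.map_map (by fun_prop) hZ, hlaw]
    exact Measure.infinitePi_map_restrict (μ := fun _ : E => logistic)
  have key := limit_mainq ℙ Set.univ F hF (fun e => ⟨fun _ => hFe e, fun _ => Set.mem_univ e⟩)
    (fun n => (F n).powerset) (fun n => q (F n)) (fun n => hq (F n))
    (fun n T hT => Finset.mem_powerset.1 hT) a h.drift h.meas (fun n => hdr (F n))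
    (hconv F hF hFe) Z hZ hmar S S (Set.subset_univ _) (Finset.Subset.refl S)
  have h2 : (ℙ.map fun ω => conf a (Z ω)).real {x | ∀ e ∈ S, x e = true} =
      ℙ.real {ω | ∀ e ∈ S, (e ∈ limitSet a (Z ω) ↔ e ∈ S)} := by
    have hmc : Measurable fun ω => conf a (Z ω) :=
      (measurable_conf_fixed a h.drift h.meas).comp hZ
    rw [map_measureReal_apply hmc (measurableSet_incl S)]
    congr 1
    ext ω
    simp only [Set.mem_preimage, Set.mem_ofPred_eq, conf_eq_true]
    constructor
    · intro h e he
      exact ⟨fun _ => he, fun _ => h e he⟩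
    · intro h e he
      exact (h e he).2 he
  rw [h2]
  refine tendsto_nhds_unique key (tendsto_const_nhds.congr' ?_)
  have hev : ∀ᶠ n in atTop, S ⊆ F n := by
    have h' := (Filter.eventually_all_finset S (l := atTop) (p := fun e n => e ∈ F n)).2
      fun e _ => by
        obtain ⟨n, hn⟩ := hFe e
        filter_upwards [eventually_ge_atTop n] with m hm using hF hm hn
    filter_upwards [h'] with n hn e he using hn e he
  filter_upwards [hev] with n hn
  have h3 := hD (F n) S hn
  have h4 : ∀ T : Finset E, T ∩ S = S ↔ S ⊆ T := fun T => Finset.inter_eq_right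
  simp only [h4]
  rw [h3, mul_div_assoc, div_self (hq (F n)).pos.ne', mul_one]

end Approx

end Vale.Agent.P143.H536
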