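import Vale.Agent.P143.H536.Asm

/-!
Laws on `{0,1}^E` are determined by the inclusion probabilities.
-/

namespace Vale.Agent.P143.H536

open MeasureTheory

variable {E : Type*}

/-- the family of inclusion events -/
def inclEvents (E : Type*) : Set (Set (E → Bool)) :=
  Set.range fun S : Finset E => {x : E → Bool | ∀ e ∈ S, x e = true}

theorem isPiSystem_inclEvents : IsPiSystem (inclEvents E) := by
  classical
  rintro _ ⟨S, rfl⟩ _ ⟨T, rfl⟩ _
  refine ⟨S ∪ T, ?_⟩
  ext x
  simp only [Finset.mem_union, Set.mem_ofPred_eq, Set.mem_inter_iff]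
  constructor
  · intro h
    exact ⟨fun e he => h e (Or.inl he), fun e he => h e (Or.inr he)⟩
  · rintro ⟨h1, h2⟩ e (he | he)
    · exact h1 e he
    · exact h2 e he

theorem generateFrom_inclEvents :
    (MeasurableSpace.pi : MeasurableSpace (E → Bool)) =
      MeasurableSpace.generateFrom (inclEvents E) := by
  refine le_antisymm ?_ ?_
  · refine iSup_le fun e => ?_
    have h1 : @Measurable (E → Bool) Bool (MeasurableSpace.generateFrom (inclEvents E)) _
        (fun x => x e) := by
      refine @measurable_to_bool _ (MeasurableSpace.generateFrom (inclEvents E)) _ ?_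
      refine MeasurableSpace.measurableSet_generateFrom ⟨{e}, ?_⟩
      ext x
      simp
    exact measurable_iff_comap_le.1 h1
  · refine MeasurableSpace.generateFrom_le ?_
    rintro _ ⟨S, rfl⟩
    exact measurableSet_incl S

/-- laws on `{0,1}^E` are determined by the inclusion probabilities -/
theorem ext_incl {μ ν : Measure (E → Bool)} [IsProbabilityMeasure μ]
    [IsProbabilityMeasure ν] (h : ∀ S : Finset E,
      μ.real {x | ∀ e ∈ S, x e = true} = ν.real {x | ∀ e ∈ S, x e = true}) : μ = ν := by
  refine ext_of_generate_finite (inclEvents E) generateFrom_inclEvents isPiSystem_inclEvents ?_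
    (by rw [measure_univ, measure_univ])
  rintro _ ⟨S, rfl⟩
  have := h S
  rw [measureReal_def, measureReal_def] at this
  exact (ENNReal.toReal_eq_toReal_iff' (measure_ne_top μ _) (measure_ne_top ν _)).1 this

end Vale.Agent.P143.H536
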