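import Vale.Agent.P143.H536.Asm

/-!
Factors of independent labels from a drift with the right law.
-/

namespace Vale.Agent.P143.H536

open MeasureTheory Filter Topology Vale.Agent.P143 Vale.Agent.P143.Lim unitInterval

/-- the flow of the drift `a` produces the law `μ` from independent logistic noise -/
structure Good {E : Type*} (a : (E → ℝ) → E → ℝ) (μ : Measure (E → Bool)) : Prop where
  drift : IsDrift a
  meas : ∀ e, Measurable fun w : E → ℝ => a w e
  law : (Measure.infinitePi fun _ : E => logistic).map (conf a) = μ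

section

variable {E : Type*}

theorem Good.law' [Countable E] {a : (E → ℝ) → E → ℝ} {μ : Measure (E → Bool)} (h : Good a μ)
    {Ω : Type*} [MeasurableSpace Ω] (P : Measure Ω)
    (Z : Ω → E → ℝ) (hZ : Measurable Z)
    (hlaw : P.map Z = Measure.infinitePi fun _ : E => logistic) :
    P.map (fun ω => conf a (Z ω)) = μ := by
  rw [← h.law, ← hlaw, Measure.map_map (measurable_conf_fixed a h.drift h.meas) hZ]
  rfl

/-- a decoder of uniform labels into logistic noise -/
noncomputable def dec : I → ℝ := (Measure.exists_measurable_map_eq logistic).choose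

theorem measurable_dec : Measurable dec :=
  (Measure.exists_measurable_map_eq logistic).choose_spec.1

theorem map_dec : (volume : Measure I).map dec = logistic :=
  (Measure.exists_measurable_map_eq logistic).choose_spec.2

theorem map_dec_pi (E : Type*) :
    (iidLabels E).map (fun U e => dec (U e)) = Measure.infinitePi fun _ : E => logistic := by
  unfold iidLabels
  rw [Measure.infinitePi_map_pi (fun _ : E => (volume : Measure I))
      (f := fun _ => dec) (hf := fun _ => measurable_dec)]
  simp only [map_dec]

/-- factors of independent labels on the group -/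
theorem Good.isFactor {Γ : Type*} [Group Γ] [MulAction Γ E] [Countable E]
    (hΓ : FinStab Γ E) {a : (E → ℝ) → E → ℝ} {μ : Measure (E → Bool)} (h : Good a μ)
    (heq : ∀ (γ : Γ) (w : E → ℝ), (∀ f, 0 < w f) → ∀ x, a w (γ • x) = a (fun y => w (γ • y)) x) :
    ∃ Φ : (Γ → I) → E → Bool, Measurable Φ ∧
      (∀ (γ : Γ) (U : Γ → I) (x : E), Φ (fun g => U (γ⁻¹ * g)) x = Φ U (γ⁻¹ • x)) ∧
      μ = (iidLabels Γ).map Φ := by
  refine ⟨fun U => conf a (orbNoise logistic hΓ U),
    (measurable_conf_fixed a h.drift h.meas).comp (measurable_orbNoise logistic hΓ), ?_, ?_⟩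
  · intro γ U x
    have h1 := conf_comap (fun y : E => γ⁻¹ • y) a a (fun w hw x => heq γ⁻¹ w hw x)
      (orbNoise logistic hΓ U) x
    refine Eq.trans ?_ h1.symm
    have h2 : orbNoise logistic hΓ (fun g => U (γ⁻¹ * g)) =
        orbNoise logistic hΓ U ∘ fun y => γ⁻¹ • y := by
      ext e
      exact orbNoise_smul logistic hΓ γ U e
    show conf a (orbNoise logistic hΓ (fun g => U (γ⁻¹ * g))) x = _
    rw [h2]
  · exact (h.law' (iidLabels Γ) _ (measurable_orbNoise logistic hΓ)
      (map_orbNoise logistic hΓ)).symm

/-- a drift that is invariant under the action produces an invariant law -/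
theorem Good.label_law [Countable E] {a : (E → ℝ) → E → ℝ} {μ : Measure (E → Bool)}
    (h : Good a μ) : (iidLabels E).map (fun U => conf a (fun e => dec (U e))) = μ := by
  refine h.law' (iidLabels E) (fun U e => dec (U e)) ?_ (map_dec_pi E)
  exact measurable_pi_iff.2 fun e => measurable_dec.comp (measurable_pi_apply e)

end

section Rule

variable {E : Type*}

/-- the rule obtained from a family of drifts -/
noncomputable def rule {Θ : Type*} (a : Θ → (E → ℝ) → E → ℝ) (θ : Θ) (U : E → I) (e : E) : Bool :=
  conf (a θ) (fun e => dec (U e)) e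

theorem measurable_rule {Θ : Type*} [MeasurableSpace Θ] [Countable E]
    (a : Θ → (E → ℝ) → E → ℝ) (ha : ∀ θ, IsDrift (a θ))
    (hm : ∀ e, Measurable fun p : Θ × (E → ℝ) => a p.1 p.2 e) (e : E) :
    Measurable fun p : Θ × (E → I) => rule a p.1 p.2 e := by
  have h := measurable_conf a ha hm e
  refine h.comp (f := fun p : Θ × (E → I) => (p.1, fun e => dec (p.2 e))) ?_
  refine measurable_fst.prodMk (measurable_pi_iff.2 fun e => ?_)
  exact measurable_dec.comp ((measurable_pi_apply e).comp measurable_snd)

theorem rule_comap {Θ : Type*} {E' Θ' : Type*} (a : Θ → (E → ℝ) → E → ℝ)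
    (a' : Θ' → (E' → ℝ) → E' → ℝ) (i : E' → E) (θ : Θ) (θ' : Θ')
    (h : ∀ w, (∀ f, 0 < w f) → ∀ x, a θ w (i x) = a' θ' (w ∘ i) x) (U : E → I) (x : E') :
    rule a' θ' (U ∘ i) x = rule a θ U (i x) := by
  unfold rule
  rw [conf_comap i (a θ) (a' θ') h]
  rfl

end Rule

end Vale.Agent.P143.H536
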