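import Vale.Agent.P143.Bdl.B1

/-!
The rectified flow with a general prior on the finite family of sets (finite index type).
-/

namespace Vale.Agent.P143.H536

open MeasureTheory Filter Topology Vale.Agent.P143

/-- a nonnegative prior on a finite family, of positive mass -/
structure Prior {ι : Type*} (𝒯 : Finset (Finset ι)) (q : Finset ι → ℝ) : Prop where
  nonneg : ∀ T ∈ 𝒯, 0 ≤ q T
  pos : 0 < ∑ T ∈ 𝒯, q T

/-- probability of `i ∈ T` when `T ∈ 𝒯` is chosen with probability proportional to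
`q T` times the product of the weights of its elements -/
noncomputable def upr {ι : Type*} [DecidableEq ι] (𝒯 : Finset (Finset ι)) (q : Finset ι → ℝ)
    (w : ι → ℝ) (i : ι) : ℝ :=
  (∑ T ∈ 𝒯 with i ∈ T, q T * ∏ j ∈ T, w j) / ∑ T ∈ 𝒯, q T * ∏ j ∈ T, w j

section

variable {ι : Type*}

/-- posterior probability of a set -/
noncomputable def postq (𝒯 : Finset (Finset ι)) (q : Finset ι → ℝ) (w : ι → ℝ)
    (T : Finset ι) : ℝ :=
  (q T * ∏ j ∈ T, w j) / ∑ T' ∈ 𝒯, q T' * ∏ j ∈ T', w j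

theorem term_nonneg {𝒯 : Finset (Finset ι)} {q : Finset ι → ℝ} (hq : Prior 𝒯 q) {w : ι → ℝ}
    (hw : ∀ i, 0 < w i) {T : Finset ι} (hT : T ∈ 𝒯) : 0 ≤ q T * ∏ j ∈ T, w j :=
  mul_nonneg (hq.nonneg T hT) (Finset.prod_nonneg fun i _ => (hw i).le)

theorem sum_qprod_pos {𝒯 : Finset (Finset ι)} {q : Finset ι → ℝ} (hq : Prior 𝒯 q) {w : ι → ℝ}
    (hw : ∀ i, 0 < w i) : 0 < ∑ T' ∈ 𝒯, q T' * ∏ j ∈ T', w j := by
  obtain ⟨T, hT, hqT⟩ : ∃ T ∈ 𝒯, 0 < q T := by
    by_contra hcon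
    push Not at hcon
    exact absurd hq.pos (not_lt.2 (Finset.sum_nonpos hcon))
  refine Finset.sum_pos' (fun T hT => term_nonneg hq hw hT) ⟨T, hT, ?_⟩
  exact mul_pos hqT (Finset.prod_pos fun i _ => hw i)

theorem postq_nonneg {𝒯 : Finset (Finset ι)} {q : Finset ι → ℝ} (hq : Prior 𝒯 q) {w : ι → ℝ}
    (hw : ∀ i, 0 < w i) {T : Finset ι} (hT : T ∈ 𝒯) : 0 ≤ postq 𝒯 q w T :=
  div_nonneg (term_nonneg hq hw hT) (sum_qprod_pos hq hw).le

theorem sum_postq {𝒯 : Finset (Finset ι)} {q : Finset ι → ℝ} (hq : Prior 𝒯 q) {w : ι → ℝ}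
    (hw : ∀ i, 0 < w i) : ∑ T ∈ 𝒯, postq 𝒯 q w T = 1 := by
  unfold postq
  rw [← Finset.sum_div, div_self (sum_qprod_pos hq hw).ne']

variable [DecidableEq ι]

theorem upr_eq_sum_postq (𝒯 : Finset (Finset ι)) (q : Finset ι → ℝ) (w : ι → ℝ) (i : ι) :
    upr 𝒯 q w i = ∑ T ∈ 𝒯, postq 𝒯 q w T * ind T i := by
  unfold upr postq ind
  rw [Finset.sum_filter, Finset.sum_div]
  refine Finset.sum_congr rfl fun T _ => ?_
  by_cases h : i ∈ T <;> simp [h]

theorem upr_nonneg {𝒯 : Finset (Finset ι)} {q : Finset ι → ℝ} (hq : Prior 𝒯 q) {w : ι → ℝ}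
    (hw : ∀ i, 0 < w i) (i : ι) : 0 ≤ upr 𝒯 q w i :=
  div_nonneg (Finset.sum_nonneg fun _ hT => term_nonneg hq hw (Finset.mem_filter.1 hT).1)
    (sum_qprod_pos hq hw).le

theorem upr_le_one {𝒯 : Finset (Finset ι)} {q : Finset ι → ℝ} (hq : Prior 𝒯 q) {w : ι → ℝ}
    (hw : ∀ i, 0 < w i) (i : ι) : upr 𝒯 q w i ≤ 1 := by
  refine div_le_one_of_le₀ ?_ (sum_qprod_pos hq hw).le
  exact Finset.sum_le_sum_of_subset_of_nonneg (Finset.filter_subset _ _)
    fun T hT _ => term_nonneg hq hw hT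

variable [Fintype ι]

theorem field_upr_lip {𝒯 : Finset (Finset ι)} {q : Finset ι → ℝ} (hd : IsDrift (upr 𝒯 q))
    (r : ℝ) (z z' : ι → ℝ) (i : ι) :
    |field (upr 𝒯 q) r z i - field (upr 𝒯 q) r z' i| ≤ 8 * ‖z - z'‖ := by
  have h := field_lip hd r r z z' ‖z - z'‖ (fun f => by
    have := norm_le_pi_norm (z - z') f
    rwa [Pi.sub_apply, Real.norm_eq_abs] at this) i
  rwa [sub_self, abs_zero, mul_zero, add_zero] at h

/-- one step of the coupled pair of chains -/
theorem step_sqq {𝒯 : Finset (Finset ι)} {q : Finset ι → ℝ} (hq : Prior 𝒯 q)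
    (hd : IsDrift (upr 𝒯 q)) (r : ℝ) {h : ℝ} (h0 : 0 ≤ h) (h1 : h ≤ 1) (x y : ι → ℝ) :
    ∑ T ∈ 𝒯, postq 𝒯 q (fun i => wt r (x i)) T *
        sq (x + h • ind T - (y + h • field (upr 𝒯 q) r y))
      ≤ (1 + h * (1 + 2 * (Fintype.card ι * 8 ^ 2))) * sq (x - y)
        + h ^ 2 * Fintype.card ι := by
  set n : ℝ := (Fintype.card ι : ℝ) with hn
  have hw : ∀ i, 0 < (fun i => wt r (x i)) i := fun i => wt_pos _ _
  set p : Finset ι → ℝ := postq 𝒯 q (fun i => wt r (x i)) with hp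
  have hp1 : ∑ T ∈ 𝒯, p T = 1 := sum_postq hq hw
  have hcoord : ∀ i, ∑ T ∈ 𝒯, p T * (x + h • ind T - (y + h • field (upr 𝒯 q) r y)) i ^ 2
      ≤ (1 + h) * (x i - y i) ^ 2 + (h + h ^ 2) * (8 ^ 2 * sq (x - y)) + h ^ 2 := by
    intro i
    set v := field (upr 𝒯 q) r x i with hv
    set v' := field (upr 𝒯 q) r y i with hv'
    have hvsum : ∑ T ∈ 𝒯, p T * ind T i = v := (upr_eq_sum_postq 𝒯 q _ i).symm
    have hv0 : 0 ≤ v := upr_nonneg hq hw i
    have hv1 : v ≤ 1 := upr_le_one hq hw i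
    have hdiff : |v - v'| ≤ 8 * ‖x - y‖ := field_upr_lip hd r x y i
    have hdiff2 : (v - v') ^ 2 ≤ 8 ^ 2 * sq (x - y) := by
      calc (v - v') ^ 2 = |v - v'| ^ 2 := (sq_abs _).symm
        _ ≤ (8 * ‖x - y‖) ^ 2 := by (clear * - hdiff; gcongr)
        _ = 8 ^ 2 * ‖x - y‖ ^ 2 := by ring
        _ ≤ 8 ^ 2 * sq (x - y) := by
          gcongr
          exact norm_sq_le_sq _
    have hexp : ∑ T ∈ 𝒯, p T * (x + h • ind T - (y + h • field (upr 𝒯 q) r y)) i ^ 2
        = (x i - y i - h * v') ^ 2 + (2 * (x i - y i - h * v') * h + h ^ 2) * v := by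
      have hterm : ∀ T ∈ 𝒯, p T * (x + h • ind T - (y + h • field (upr 𝒯 q) r y)) i ^ 2
          = (x i - y i - h * v') ^ 2 * p T
            + (2 * (x i - y i - h * v') * h + h ^ 2) * (p T * ind T i) := by
        intro T _
        have hi : ind T i ^ 2 = ind T i := by
          unfold ind; split_ifs <;> norm_num
        simp only [Pi.sub_apply, Pi.add_apply, Pi.smul_apply, smul_eq_mul, ← hv']
        linear_combination (p T * h ^ 2) * hi
      rw [Finset.sum_congr rfl hterm, Finset.sum_add_distrib, ← Finset.mul_sum,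
        ← Finset.mul_sum, hp1, hvsum, mul_one]
    rw [hexp]
    have h5 : 2 * ((x i - y i) * (v - v')) ≤ (x i - y i) ^ 2 + (v - v') ^ 2 := by
      nlinarith only [sq_nonneg ((x i - y i) - (v - v'))]
    have h6 : (x i - y i - h * v') ^ 2 + (2 * (x i - y i - h * v') * h + h ^ 2) * v
        = (x i - y i) ^ 2 + h * (2 * ((x i - y i) * (v - v'))) + h ^ 2 * (v - v') ^ 2
          + h ^ 2 * (v - v ^ 2) := by ring
    rw [h6]
    have h7 : v - v ^ 2 ≤ 1 := by nlinarith only []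
    have h8 : h * (2 * ((x i - y i) * (v - v'))) ≤ h * ((x i - y i) ^ 2 + (v - v') ^ 2) :=
      mul_le_mul_of_nonneg_left h5 h0
    have h9 : h ^ 2 * (v - v ^ 2) ≤ h ^ 2 * 1 :=
      mul_le_mul_of_nonneg_left h7 (by (clear * -; positivity))
    have h10 : (h + h ^ 2) * (v - v') ^ 2 ≤ (h + h ^ 2) * (8 ^ 2 * sq (x - y)) :=
      mul_le_mul_of_nonneg_left hdiff2 (by (clear * - h0; positivity))
    linarith
  have hswap : ∑ T ∈ 𝒯, p T * sq (x + h • ind T - (y + h • field (upr 𝒯 q) r y))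
      = ∑ i, ∑ T ∈ 𝒯, p T * (x + h • ind T - (y + h • field (upr 𝒯 q) r y)) i ^ 2 := by
    unfold sq
    rw [Finset.sum_comm]
    exact Finset.sum_congr rfl fun T _ => Finset.mul_sum _ _ _
  rw [hswap]
  calc ∑ i, ∑ T ∈ 𝒯, p T * (x + h • ind T - (y + h • field (upr 𝒯 q) r y)) i ^ 2
      ≤ ∑ i, ((1 + h) * (x i - y i) ^ 2 + (h + h ^ 2) * (8 ^ 2 * sq (x - y)) + h ^ 2) :=
        Finset.sum_le_sum fun i _ => hcoord i
    _ = (1 + h) * sq (x - y) + (h + h ^ 2) * (n * 8 ^ 2) * sq (x - y) + h ^ 2 * n := by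
        rw [Finset.sum_add_distrib, Finset.sum_add_distrib, ← Finset.mul_sum]
        simp only [Finset.sum_const, Finset.card_univ, nsmul_eq_mul, ← hn]
        have : ∑ i, (x i - y i) ^ 2 = sq (x - y) := rfl
        rw [this]
        ring
    _ ≤ _ := by
        have hs := sq_nonneg' (x - y)
        have hn0 : 0 ≤ n := by rw [hn]; (clear * -; positivity)
        have h2 : h + h ^ 2 ≤ 2 * h := by nlinarith only [h0, h1]
        have h3 : (h + h ^ 2) * (n * 8 ^ 2 * sq (x - y))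
            ≤ (2 * h) * (n * 8 ^ 2 * sq (x - y)) :=
          mul_le_mul_of_nonneg_right h2 (by (clear * - hs hn0; positivity))
        linarith

/-- one step of the resampled chain acting on functions -/
noncomputable def Qopq (𝒯 : Finset (Finset ι)) (q : Finset ι → ℝ) (h r : ℝ)
    (g : (ι → ℝ) → ℝ) (y : ι → ℝ) : ℝ :=
  ∑ T ∈ 𝒯, postq 𝒯 q (fun i => wt r (y i)) T * g (y + h • ind T)

/-- `k` steps of the resampled chain acting on functions -/
noncomputable def PQq (𝒯 : Finset (Finset ι)) (q : Finset ι → ℝ) (h : ℝ) :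
    ℕ → ((ι → ℝ) → ℝ) → (ι → ℝ) → ℝ
  | 0, g => g
  | k + 1, g => PQq 𝒯 q h k (Qopq 𝒯 q h (k * h) g)

theorem PQq_sub_euler {𝒯 : Finset (Finset ι)} {q : Finset ι → ℝ} (hq : Prior 𝒯 q)
    (hd : IsDrift (upr 𝒯 q)) {h : ℝ} (h0 : 0 ≤ h)
    (h1 : h ≤ 1) {c : ℝ} (hc : c = 1 + 2 * (Fintype.card ι * 8 ^ 2)) (k : ℕ) :
    ∀ (g f : (ι → ℝ) → ℝ) (α β : ℝ), 0 ≤ β → (∀ x y, |g x - f y| ≤ α + β * sq (x - y)) →
      ∀ x y, |PQq 𝒯 q h k g x - f (euler (field (upr 𝒯 q)) h k y)|
        ≤ α + β * (1 + h * c) ^ k * (sq (x - y) + k * (h ^ 2 * Fintype.card ι)) := by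
  have hc0 : 0 ≤ c := by rw [hc]; (clear * -; positivity)
  have hb0 : 1 ≤ 1 + h * c := by nlinarith only [h0, hc0]
  induction k with
  | zero =>
    intro g f α β _ hgf x y
    simpa only [PQq, euler, pow_zero, mul_one, CharP.cast_eq_zero, zero_mul, add_zero] using hgf x y
  | succ k ih =>
    intro g f α β hβ hgf x y
    have hgf' : ∀ x y, |Qopq 𝒯 q h (k * h) g x -
          (fun y => f (y + h • field (upr 𝒯 q) (k * h) y)) y|
        ≤ (α + β * (h ^ 2 * Fintype.card ι)) + (β * (1 + h * c)) * sq (x - y) := by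
      intro x y
      have hw : ∀ i, 0 < (fun i => wt (k * h) (x i)) i := fun i => wt_pos _ _
      have e1 : Qopq 𝒯 q h (k * h) g x - f (y + h • field (upr 𝒯 q) (k * h) y)
          = ∑ T ∈ 𝒯, postq 𝒯 q (fun i => wt (k * h) (x i)) T *
            (g (x + h • ind T) - f (y + h • field (upr 𝒯 q) (k * h) y)) := by
        simp only [mul_sub]
        rw [Finset.sum_sub_distrib, ← Finset.sum_mul, sum_postq hq hw, one_mul, Qopq]
      simp only
      rw [e1]
      calc |∑ T ∈ 𝒯, postq 𝒯 q (fun i => wt (k * h) (x i)) T *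
            (g (x + h • ind T) - f (y + h • field (upr 𝒯 q) (k * h) y))|
          ≤ ∑ T ∈ 𝒯, postq 𝒯 q (fun i => wt (k * h) (x i)) T *
            (α + β * sq (x + h • ind T - (y + h • field (upr 𝒯 q) (k * h) y))) := by
            refine (Finset.abs_sum_le_sum_abs _ _).trans (Finset.sum_le_sum fun T hT => ?_)
            rw [abs_mul, abs_of_nonneg (postq_nonneg hq hw hT)]
            exact mul_le_mul_of_nonneg_left (hgf _ _) (postq_nonneg hq hw hT)
        _ = α + β * ∑ T ∈ 𝒯, postq 𝒯 q (fun i => wt (k * h) (x i)) T *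
            sq (x + h • ind T - (y + h • field (upr 𝒯 q) (k * h) y)) := by
            simp only [mul_add]
            rw [Finset.sum_add_distrib, ← Finset.sum_mul, sum_postq hq hw, one_mul,
              Finset.mul_sum]
            congr 1
            exact Finset.sum_congr rfl fun T _ => by ring
        _ ≤ α + β * ((1 + h * c) * sq (x - y) + h ^ 2 * Fintype.card ι) := by
            have := step_sqq hq hd (k * h) h0 h1 x y
            rw [← hc] at this
            (clear * - this hβ; gcongr)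
        _ = _ := by ring
    have := ih (Qopq 𝒯 q h (k * h) g) (fun y => f (y + h • field (upr 𝒯 q) (k * h) y)) _ _
      (by (clear * - hβ h0 hc0; positivity)) hgf' x y
    have e2 : f (euler (field (upr 𝒯 q)) h (k + 1) y)
        = (fun y => f (y + h • field (upr 𝒯 q) (k * h) y))
            (euler (field (upr 𝒯 q)) h k y) := rfl
    rw [e2]
    refine this.trans ?_
    have hk1 : 1 ≤ (1 + h * c) ^ (k + 1) := one_le_pow₀ hb0
    have hbc : β * (h ^ 2 * Fintype.card ι) ≤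
        β * (1 + h * c) ^ (k + 1) * (h ^ 2 * Fintype.card ι) := by
      rw [mul_assoc]
      refine mul_le_mul_of_nonneg_left ?_ hβ
      exact le_mul_of_one_le_left (by (clear * -; positivity)) hk1
    have e3 : β * (1 + h * c) * (1 + h * c) ^ k = β * (1 + h * c) ^ (k + 1) := by ring
    have e4 : β * (1 + h * c) ^ (k + 1) * (sq (x - y) + ((k + 1 : ℕ) : ℝ)
        * (h ^ 2 * Fintype.card ι)) = β * (1 + h * c) ^ (k + 1) * (sq (x - y) + k
        * (h ^ 2 * Fintype.card ι)) + β * (1 + h * c) ^ (k + 1) * (h ^ 2 * Fintype.card ι) := by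
      push_cast; ring
    rw [e3, e4]
    linarith only [hbc]

omit [DecidableEq ι] [Fintype ι] in
theorem cont_postq {𝒯 : Finset (Finset ι)} {q : Finset ι → ℝ} (hq : Prior 𝒯 q) (r : ℝ)
    (T : Finset ι) : Continuous fun y : ι → ℝ => postq 𝒯 q (fun i => wt r (y i)) T := by
  unfold postq
  have hc : ∀ T : Finset ι, Continuous fun y : ι → ℝ => q T * ∏ j ∈ T, wt r (y j) := fun T =>
    continuous_const.mul
      (continuous_finsetProd _ fun j _ => (continuous_wt r).comp (continuous_apply j))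
  exact (hc T).div (continuous_finsetSum _ fun T _ => hc T) fun y =>
    (sum_qprod_pos hq fun i => wt_pos _ _).ne'

omit [Fintype ι] in
theorem cont_Qopq {𝒯 : Finset (Finset ι)} {q : Finset ι → ℝ} (hq : Prior 𝒯 q) (h r : ℝ)
    {g : (ι → ℝ) → ℝ} (hg : Continuous g) : Continuous (Qopq 𝒯 q h r g) := by
  unfold Qopq
  exact continuous_finsetSum _ fun T _ => (cont_postq hq r T).mul
    (hg.comp (by fun_prop))

omit [Fintype ι] in
theorem Qopq_bdd {𝒯 : Finset (Finset ι)} {q : Finset ι → ℝ} (hq : Prior 𝒯 q) (h r : ℝ)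
    {g : (ι → ℝ) → ℝ} {B : ℝ} (hg : ∀ z, |g z| ≤ B) (z : ι → ℝ) : |Qopq 𝒯 q h r g z| ≤ B := by
  have hw : ∀ i, 0 < (fun i => wt r (z i)) i := fun i => wt_pos _ _
  unfold Qopq
  calc |∑ T ∈ 𝒯, postq 𝒯 q (fun i => wt r (z i)) T * g (z + h • ind T)|
      ≤ ∑ T ∈ 𝒯, postq 𝒯 q (fun i => wt r (z i)) T * B := by
        refine (Finset.abs_sum_le_sum_abs _ _).trans (Finset.sum_le_sum fun T hT => ?_)
        rw [abs_mul, abs_of_nonneg (postq_nonneg hq hw hT)]
        exact mul_le_mul_of_nonneg_left (hg _) (postq_nonneg hq hw hT)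
    _ = B := by rw [← Finset.sum_mul, sum_postq hq hw, one_mul]

theorem one_stepq {𝒯 : Finset (Finset ι)} {q : Finset ι → ℝ} (hq : Prior 𝒯 q) (h r : ℝ)
    {g : (ι → ℝ) → ℝ} {B : ℝ} (hg : Continuous g) (hB : ∀ z, |g z| ≤ B) :
    ∑ T ∈ 𝒯, q T * ∫ z, g (z + (r + h) • ind T) ∂(noise ι)
      = ∑ T ∈ 𝒯, q T * ∫ z, Qopq 𝒯 q h r g (z + r • ind T) ∂(noise ι) := by
  have hB0 : 0 ≤ B := (abs_nonneg _).trans (hB 0)
  have hcp : ∀ T : Finset ι, Continuous fun y : ι → ℝ => ∏ j ∈ T, wt r (y j) := fun T =>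
    continuous_finsetProd _ fun j _ => (continuous_wt r).comp (continuous_apply j)
  have hbp : ∀ (T : Finset ι) (y : ι → ℝ), |∏ j ∈ T, wt r (y j)| ≤ Real.exp |r| ^ T.card := by
    intro T y
    rw [Finset.abs_prod]
    calc ∏ j ∈ T, |wt r (y j)| ≤ ∏ j ∈ T, Real.exp |r| :=
          Finset.prod_le_prod (fun j _ => abs_nonneg _) fun j _ => by
            rw [abs_of_pos (wt_pos _ _)]; exact wt_le _ _
      _ = _ := by rw [Finset.prod_const]
  have e1 : ∀ T ∈ 𝒯, q T * ∫ z, g (z + (r + h) • ind T) ∂(noise ι)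
      = ∫ y, q T * (g (y + h • ind T) * ∏ j ∈ T, wt r (y j)) ∂(noise ι) := by
    intro T _
    rw [integral_const_mul]
    congr 1
    rw [← integral_shift T r (fun y => g (y + h • ind T)) (hg.measurable.comp (by fun_prop))]
    refine integral_congr_ae (ae_of_all _ fun z => ?_)
    simp only
    congr 1
    rw [add_smul, add_assoc]
  have e2 : ∀ T ∈ 𝒯, q T * ∫ z, Qopq 𝒯 q h r g (z + r • ind T) ∂(noise ι)
      = ∫ y, q T * (Qopq 𝒯 q h r g y * ∏ j ∈ T, wt r (y j)) ∂(noise ι) := by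
    intro T _
    rw [integral_const_mul]
    congr 1
    exact integral_shift T r _ (cont_Qopq hq h r hg).measurable
  rw [Finset.sum_congr rfl e1, Finset.sum_congr rfl e2, ← integral_finsetSum,
    ← integral_finsetSum]
  · refine integral_congr_ae (ae_of_all _ fun y => ?_)
    simp only
    have hS := (sum_qprod_pos hq (w := fun i => wt r (y i)) fun i => wt_pos _ _).ne'
    have h3 : ∑ T ∈ 𝒯, q T * (Qopq 𝒯 q h r g y * ∏ j ∈ T, wt r (y j)) =
        Qopq 𝒯 q h r g y * ∑ T ∈ 𝒯, q T * ∏ j ∈ T, wt r (y j) := by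
      rw [Finset.mul_sum]
      exact Finset.sum_congr rfl fun T _ => by ring
    rw [h3, Qopq, Finset.sum_mul]
    refine Finset.sum_congr rfl fun T _ => ?_
    unfold postq
    (clear * - hS; field_simp)
  · intro T _
    refine (integrable_bdd (B := B * Real.exp |r| ^ T.card)
      ((cont_Qopq hq h r hg).mul (hcp T)) fun z => ?_).const_mul _
    rw [Pi.mul_apply, abs_mul]
    exact mul_le_mul (Qopq_bdd hq h r hB z) (hbp T z) (abs_nonneg _) hB0
  · intro T _
    refine (integrable_bdd (B := B * Real.exp |r| ^ T.card)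
      ((hg.comp (by fun_prop)).mul (hcp T)) fun z => ?_).const_mul _
    rw [Pi.mul_apply, abs_mul]
    exact mul_le_mul (hB _) (hbp T z) (abs_nonneg _) hB0

theorem law_chainq {𝒯 : Finset (Finset ι)} {q : Finset ι → ℝ} (hq : Prior 𝒯 q) (h : ℝ)
    (k : ℕ) :
    ∀ (g : (ι → ℝ) → ℝ) (B : ℝ), Continuous g → (∀ z, |g z| ≤ B) →
      ∑ T ∈ 𝒯, q T * ∫ z, g (z + (k * h) • ind T) ∂(noise ι)
        = (∑ T ∈ 𝒯, q T) * ∫ z, PQq 𝒯 q h k g z ∂(noise ι) := by
  induction k with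
  | zero =>
    intro g B _ _
    simp [PQq, Finset.sum_mul]
  | succ k ih =>
    intro g B hg hB
    have := one_stepq hq h (k * h) hg hB
    have e : ((k + 1 : ℕ) : ℝ) * h = k * h + h := by push_cast; ring
    rw [e, this]
    exact ih _ B (cont_Qopq hq h _ hg) (Qopq_bdd hq h _ hB)

omit [Fintype ι] in
theorem cont_PQq {𝒯 : Finset (Finset ι)} {q : Finset ι → ℝ} (hq : Prior 𝒯 q) (h : ℝ) (k : ℕ) :
    ∀ (g : (ι → ℝ) → ℝ), Continuous g → Continuous (PQq 𝒯 q h k g) := by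
  induction k with
  | zero => intro g hg; simpa [PQq] using hg
  | succ k ih => intro g hg; exact ih _ (cont_Qopq hq h _ hg)

omit [Fintype ι] in
theorem PQq_bdd {𝒯 : Finset (Finset ι)} {q : Finset ι → ℝ} (hq : Prior 𝒯 q) (h : ℝ) (k : ℕ) :
    ∀ (g : (ι → ℝ) → ℝ) (B : ℝ), (∀ z, |g z| ≤ B) → ∀ z, |PQq 𝒯 q h k g z| ≤ B := by
  induction k with
  | zero => intro g B hg; simpa only [PQq] using hg
  | succ k ih => intro g B hg; exact ih _ B (Qopq_bdd hq h _ hg)

omit [Fintype ι] in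
theorem cont_field {𝒯 : Finset (Finset ι)} {q : Finset ι → ℝ} (hq : Prior 𝒯 q) (r : ℝ) :
    Continuous (field (upr 𝒯 q) r : (ι → ℝ) → ι → ℝ) := by
  refine continuous_pi fun i => ?_
  have : (fun y : ι → ℝ => field (upr 𝒯 q) r y i)
      = fun y => ∑ T ∈ 𝒯, postq 𝒯 q (fun i => wt r (y i)) T * ind T i := by
    funext y; exact upr_eq_sum_postq 𝒯 q _ i
  rw [this]
  exact continuous_finsetSum _ fun T _ => (cont_postq hq r T).mul continuous_const

omit [Fintype ι] in
theorem cont_euler {𝒯 : Finset (Finset ι)} {q : Finset ι → ℝ} (hq : Prior 𝒯 q) (h : ℝ)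
    (k : ℕ) : Continuous (euler (field (upr 𝒯 q)) h k : (ι → ℝ) → ι → ℝ) := by
  induction k with
  | zero => exact continuous_id
  | succ k ih =>
    refine continuous_pi fun i => ?_
    exact ((continuous_apply i).comp ih).add (continuous_const.mul
      ((continuous_apply i).comp ((cont_field hq (k * h)).comp ih)))

/-- quantitative law identification -/
theorem law_rateq {𝒯 : Finset (Finset ι)} {q : Finset ι → ℝ} (hq : Prior 𝒯 q)
    (hd : IsDrift (upr 𝒯 q)) (f : (ι → ℝ) → ℝ) (L B : ℝ)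
    (hf : ∀ z z', |f z - f z'| ≤ L * ‖z - z'‖) (hB : ∀ z, |f z| ≤ B) (N : ℕ) :
    ∃ C : ℝ, ∀ j : ℕ,
      |∫ z, f (euler (field (upr 𝒯 q)) (1 / 2 ^ j) (N * 2 ^ j) z) ∂(noise ι)
        - (∑ T ∈ 𝒯, q T * ∫ z, f (z + (N : ℝ) • ind T) ∂(noise ι)) / ∑ T ∈ 𝒯, q T|
      ≤ C * Real.sqrt (1 / 2 ^ j) := by
  set n : ℝ := (Fintype.card ι : ℝ) with hn
  set c : ℝ := 1 + 2 * (n * 8 ^ 2) with hc
  have hn0 : 0 ≤ n := by rw [hn]; positivity
  have hc0 : 0 ≤ c := by rw [hc]; positivity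
  set L' := |L| with hL'
  have hf' : ∀ z z', |f z - f z'| ≤ L' * ‖z - z'‖ := fun z z' =>
    (hf z z').trans (mul_le_mul_of_nonneg_right (le_abs_self L) (norm_nonneg _))
  have hL0 : 0 ≤ L' := abs_nonneg L
  have hfc : Continuous f := by
    have : LipschitzWith (Real.toNNReal L') f := by
      refine LipschitzWith.of_dist_le_mul fun x y => ?_
      rw [Real.dist_eq, dist_eq_norm, Real.coe_toNNReal _ hL0]
      exact hf' x y
    exact this.continuous
  refine ⟨L' + L' * Real.exp (N * c) * (N * n), fun j => ?_⟩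
  set h : ℝ := 1 / 2 ^ j with hh
  have hh0 : 0 < h := by rw [hh]; positivity
  have hh1 : h ≤ 1 := by
    rw [hh, div_le_one (by positivity)]
    exact one_le_pow₀ (by norm_num)
  set K : ℕ := N * 2 ^ j with hK
  have hKh : (K : ℝ) * h = N := by
    rw [hK, hh]; push_cast; (clear * -; field_simp)
  have hcard : (0 : ℝ) < ∑ T ∈ 𝒯, q T := hq.pos
  set s := Real.sqrt h with hs
  have hs0 : 0 < s := Real.sqrt_pos.2 hh0
  have hss : s * s = h := Real.mul_self_sqrt hh0.le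
  have hlaw := law_chainq hq h K f B hfc hB
  rw [hKh] at hlaw
  rw [hlaw, mul_div_assoc, mul_comm, div_mul_cancel₀ _ hcard.ne', ← integral_sub]
  rotate_left
  · exact integrable_bdd (hfc.comp (cont_euler hq h K)) fun z => hB _
  · exact integrable_bdd (cont_PQq hq h K f hfc) (PQq_bdd hq h K f B hB)
  have hAB : ∀ x y, |f x - f y| ≤ L' * s + (L' / s) * sq (x - y) := by
    intro x y
    refine (hf' x y).trans ?_
    have h1 : ‖x - y‖ ≤ s + ‖x - y‖ ^ 2 / s := by
      rw [← sub_le_iff_le_add', le_div_iff₀ hs0]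
      nlinarith only [hss]
    calc L' * ‖x - y‖ ≤ L' * (s + ‖x - y‖ ^ 2 / s) := mul_le_mul_of_nonneg_left h1 hL0
      _ ≤ L' * (s + sq (x - y) / s) := by
        gcongr
        exact norm_sq_le_sq _
      _ = _ := by ring
  have hpt : ∀ z, |f (euler (field (upr 𝒯 q)) h K z) - PQq 𝒯 q h K f z|
      ≤ (L' + L' * Real.exp (N * c) * (N * n)) * s := by
    intro z
    rw [abs_sub_comm]
    have h1 := PQq_sub_euler hq hd hh0.le hh1 hc K f f _ _ (by (clear * - hL0 hs0; positivity))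
      hAB z z
    refine h1.trans ?_
    have h2 : sq (z - z) = 0 := by simp only [sq, Pi.sub_apply, sub_self, ne_eq,
      OfNat.ofNat_ne_zero, not_false_eq_true, zero_pow, Finset.sum_const_zero]
    have h3 : (1 + h * c) ^ K ≤ Real.exp (N * c) := by
      have h4 : 1 + h * c ≤ Real.exp (h * c) := by
        have := Real.add_one_le_exp (h * c); linarith only [this]
      calc (1 + h * c) ^ K ≤ Real.exp (h * c) ^ K := by (clear * - h4 hh0 hc0; gcongr)
        _ = Real.exp (K * (h * c)) := by rw [Real.exp_nat_mul]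
        _ = Real.exp (N * c) := by rw [← mul_assoc, hKh]
    rw [h2, zero_add]
    have h5 : (K : ℝ) * (h ^ 2 * n) = N * n * h := by
      rw [← hKh]; ring
    rw [← hn, h5]
    have h6 : L' / s * (1 + h * c) ^ K * (N * n * h)
        ≤ L' / s * Real.exp (N * c) * (N * n * h) := by
      (clear * - h3 hL0 hs0 hn0 hh0; gcongr)
    have h7 : L' / s * Real.exp (N * c) * (N * n * h) = L' * Real.exp (N * c) * (N * n) * s := by
      rw [← hss]; (clear * - hs0; field_simp)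
    (clear * - h6 h7; linarith)
  calc |∫ z, (f (euler (field (upr 𝒯 q)) h K z) - PQq 𝒯 q h K f z) ∂(noise ι)|
      ≤ ∫ z, |f (euler (field (upr 𝒯 q)) h K z) - PQq 𝒯 q h K f z| ∂(noise ι) :=
        abs_integral_le_integral_abs
    _ ≤ ∫ _z, (L' + L' * Real.exp (N * c) * (N * n)) * s ∂(noise ι) := by
        refine integral_mono_of_nonneg (ae_of_all _ fun z => abs_nonneg _)
          (integrable_const _) (ae_of_all _ hpt)
    _ = _ := by simp

theorem law_mainq {𝒯 : Finset (Finset ι)} {q : Finset ι → ℝ} (hq : Prior 𝒯 q)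
    (hd : IsDrift (upr 𝒯 q)) (f : (ι → ℝ) → ℝ) (K : NNReal) (B : ℝ)
    (hf : LipschitzWith K f) (hB : ∀ z, |f z| ≤ B) (N : ℕ) :
    Tendsto (fun j : ℕ => ∫ z, f (euler (field (upr 𝒯 q)) (1 / 2 ^ j) (N * 2 ^ j) z)
        ∂(Measure.pi fun _ : ι => logistic)) atTop
      (𝓝 ((∑ T ∈ 𝒯, q T * ∫ z, f (z + (N : ℝ) • ind T) ∂(Measure.pi fun _ : ι => logistic))
        / ∑ T ∈ 𝒯, q T)) := by
  obtain ⟨C, hC⟩ := law_rateq hq hd f K B (fun z z' => by
    have := hf.dist_le_mul z z'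
    rwa [Real.dist_eq, dist_eq_norm] at this) hB N
  rw [tendsto_iff_dist_tendsto_zero]
  have hz : Tendsto (fun j : ℕ => C * Real.sqrt (1 / 2 ^ j)) atTop (𝓝 0) := by
    have h1 : Tendsto (fun j : ℕ => (1 : ℝ) / 2 ^ j) atTop (𝓝 0) := by
      have := tendsto_pow_atTop_nhds_zero_of_lt_one (r := (1 / 2 : ℝ)) (by norm_num) (by norm_num)
      refine this.congr fun j => ?_
      rw [div_pow, one_pow]
    have h2 := (Real.continuous_sqrt.tendsto 0).comp h1
    simpa only [one_div, Real.sqrt_inv, Function.comp_apply, Real.sqrt_zero, mul_zero] using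
      h2.const_mul C
  exact squeeze_zero (fun j => dist_nonneg) (fun j => by rw [Real.dist_eq]; exact hC j) hz

end

end Vale.Agent.P143.H536
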