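import Vale.Agent.P143.H536.FlowA

/-!
The rectified flow with a general prior: transfer to the ambient index type and convergence of
drifts along weights with bounded logarithm.
-/

namespace Vale.Agent.P143.H536

open MeasureTheory Filter Topology Vale.Agent.P143 Vale.Agent.P143.Lim

section Conv

variable {E : Type*}

/-- convergence of drifts along pointwise convergent weights with bounded logarithm -/
def ConvDriftB {E : Type*} (an : ℕ → (E → ℝ) → E → ℝ) (a : (E → ℝ) → E → ℝ) : Prop :=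
  ∀ (w : E → ℝ) (wn : ℕ → E → ℝ) (K : ℝ), (∀ f, 0 < w f) → (∀ n f, 0 < wn n f) →
    (∀ f, |Real.log (w f)| ≤ K) → (∀ n f, |Real.log (wn n f)| ≤ K) →
    (∀ f, Tendsto (fun n => wn n f) atTop (𝓝 (w f))) →
    ∀ e, Tendsto (fun n => an n (wn n) e) atTop (𝓝 (a w e))

theorem euler_convDriftB (a : (E → ℝ) → E → ℝ) (an : ℕ → (E → ℝ) → E → ℝ)
    (hconv : ConvDriftB an a) {h : ℝ} (k : ℕ) (z : E → ℝ) (e : E) :
    Tendsto (fun n => euler (field (an n)) h k z e) atTop (𝓝 (euler (field a) h k z e)) := by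
  induction k generalizing e with
  | zero => exact tendsto_const_nhds
  | succ k ih =>
    have h1 := hconv (fun f => wt (k * h) (euler (field a) h k z f))
      (fun n f => wt (k * h) (euler (field (an n)) h k z f)) |k * h|
      (fun _ => wt_pos _ _) (fun _ _ => wt_pos _ _) (fun _ => abs_log_wt_le _ _)
      (fun _ _ => abs_log_wt_le _ _)
      (fun f => ((continuous_wt (k * h)).tendsto _).comp (ih f)) e
    exact (ih e).add (h1.const_mul h)

theorem flow_tendstoB (a : (E → ℝ) → E → ℝ) (an : ℕ → (E → ℝ) → E → ℝ) (ha : IsDrift a)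
    (han : ∀ n, IsDrift (an n)) (hconv : ConvDriftB an a) (N : ℕ) (z : E → ℝ) (e : E) :
    Tendsto (fun n => flow (an n) N z e) atTop (𝓝 (flow a N z e)) := by
  obtain ⟨C, hC⟩ := euler_sub_flow (E := E) N
  rw [Metric.tendsto_atTop]
  intro ε hε
  have hlim : Tendsto (fun j : ℕ => C / 2 ^ j) atTop (𝓝 0) :=
    tendsto_const_nhds.div_atTop (tendsto_pow_atTop_atTop_of_one_lt one_lt_two)
  obtain ⟨j, hj⟩ := (hlim.eventually (gt_mem_nhds (show (0 : ℝ) < ε / 3 by positivity))).exists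
  have h1 := euler_convDriftB a an hconv (h := 1 / 2 ^ j) (N * 2 ^ j) z e
  obtain ⟨n₀, hn₀⟩ := (Metric.tendsto_atTop.mp h1) (ε / 3) (by positivity)
  refine ⟨n₀, fun n hn => ?_⟩
  have h2 := hn₀ n hn
  have h3 := hC (an n) (han n) j z e
  have h4 := hC a ha j z e
  rw [Real.dist_eq] at h2 ⊢
  have h5 : flow (an n) N z e - flow a N z e =
      -(euler (field (an n)) (1 / 2 ^ j) (N * 2 ^ j) z e - flow (an n) N z e) +
      ((euler (field (an n)) (1 / 2 ^ j) (N * 2 ^ j) z e -
        euler (field a) (1 / 2 ^ j) (N * 2 ^ j) z e) +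
      (euler (field a) (1 / 2 ^ j) (N * 2 ^ j) z e - flow a N z e)) := by ring
  rw [h5]
  refine lt_of_le_of_lt (abs_add_le _ _) ?_
  refine lt_of_le_of_lt (add_le_add le_rfl (abs_add_le _ _)) ?_
  rw [abs_neg]
  linarith

end Conv

section Transfer

variable {E : Type*} [DecidableEq E]

/-- restriction of a prior to subsets of `F`, as sets of elements of the subtype -/
def qs (F : Finset E) (q : Finset E → ℝ) (T : Finset F) : ℝ :=
  q (T.map (Function.Embedding.subtype _))

theorem qs_sub {F T : Finset E} (q : Finset E → ℝ) (hT : T ⊆ F) : qs F q (sub F T) = q T := by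
  unfold qs sub
  rw [Finset.subtype_map, Finset.filter_true_of_mem hT]

theorem prior_subFam {F : Finset E} {𝒯 : Finset (Finset E)} {q : Finset E → ℝ}
    (hsub : ∀ T ∈ 𝒯, T ⊆ F) (hq : Prior 𝒯 q) : Prior (subFam F 𝒯) (qs F q) := by
  refine ⟨fun T hT => ?_, ?_⟩
  · obtain ⟨T', hT', rfl⟩ := Finset.mem_image.1 hT
    rw [qs_sub q (hsub T' hT')]
    exact hq.nonneg T' hT'
  · rw [sum_subFam F 𝒯 hsub, Finset.sum_congr rfl fun T hT => qs_sub q (hsub T hT)]
    exact hq.pos

theorem upr_subFam (F : Finset E) (𝒯 : Finset (Finset E)) (q : Finset E → ℝ)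
    (hsub : ∀ T ∈ 𝒯, T ⊆ F) (w : E → ℝ) (x : F) :
    upr (subFam F 𝒯) (qs F q) (fun y : F => w y) x = upr 𝒯 q w x := by
  unfold upr
  rw [Finset.sum_filter, Finset.sum_filter, sum_subFam F 𝒯 hsub, sum_subFam F 𝒯 hsub]
  congr 1
  · refine Finset.sum_congr rfl fun T hT => ?_
    simp only [Lim.mem_sub, prod_sub F T (hsub T hT), qs_sub q (hsub T hT)]
  · exact Finset.sum_congr rfl fun T hT => by rw [prod_sub F T (hsub T hT), qs_sub q (hsub T hT)]

theorem isDrift_uprSub (F : Finset E) (𝒯 : Finset (Finset E)) (q : Finset E → ℝ)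
    (hsub : ∀ T ∈ 𝒯, T ⊆ F) (hd : IsDrift (upr 𝒯 q)) :
    IsDrift (upr (subFam F 𝒯) (qs F q)) := by
  -- extension by one
  let ext1 : (F → ℝ) → E → ℝ := fun w e => if h : e ∈ F then w ⟨e, h⟩ else 1
  have hpos : ∀ w : F → ℝ, (∀ f, 0 < w f) → ∀ f, 0 < ext1 w f := by
    intro w hw f
    simp only [ext1]
    split_ifs with h
    · exact hw _
    · exact one_pos
  have hres : ∀ w : F → ℝ, (fun y : F => ext1 w y) = w := by
    intro w
    ext y
    simp [ext1]
  have key : ∀ (w : F → ℝ) (x : F),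
      upr (subFam F 𝒯) (qs F q) w x = upr 𝒯 q (ext1 w) x := by
    intro w x
    rw [← upr_subFam F 𝒯 q hsub, hres]
  refine ⟨fun w hw x => ?_, fun w hw x => ?_, fun w w' hw hw' δ hδ x => ?_⟩
  · rw [key]; exact hd.nonneg _ (hpos w hw) _
  · rw [key]; exact hd.le_one _ (hpos w hw) _
  · rw [key, key]
    refine hd.lip _ _ (hpos w hw) (hpos w' hw') δ (fun f => ?_) _
    simp only [ext1]
    split_ifs with h
    · exact hδ _
    · simpa only [Real.log_one, sub_self, abs_zero] using (abs_nonneg _).trans (hδ x)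

end Transfer

theorem measurable_upr {ι : Type*} [DecidableEq ι] (𝒯 : Finset (Finset ι)) (q : Finset ι → ℝ)
    (i : ι) : Measurable fun w : ι → ℝ => upr 𝒯 q w i := by
  unfold upr
  fun_prop

section Core

variable {E : Type*} [DecidableEq E]

/-- the flow of a finite system has the law of `Z + N 1_T` (finite product form) -/
theorem flow_law_finq (F : Finset E) (𝒯 : Finset (Finset E)) {q : Finset E → ℝ}
    (hq : Prior 𝒯 q)
    (hsub : ∀ T ∈ 𝒯, T ⊆ F) (hd : IsDrift (upr 𝒯 q)) (S : Finset E) (hSF : S ⊆ F)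
    (φ : (S → ℝ) → ℝ) (K : NNReal) (B : ℝ) (hφ : LipschitzWith K φ) (hB : ∀ x, |φ x| ≤ B)
    (N : ℕ) :
    ∫ z : F → ℝ, φ (fun e => flow (upr (subFam F 𝒯) (qs F q)) N z ⟨e, hSF e.2⟩)
        ∂(Measure.pi fun _ => logistic) =
      (∑ T ∈ 𝒯, q T * ∫ z : F → ℝ, φ (fun e => z ⟨e, hSF e.2⟩ + N * ind T e)
        ∂(Measure.pi fun _ => logistic)) / ∑ T ∈ 𝒯, q T := by
  set a := upr (subFam F 𝒯) (qs F q) with ha
  have hda : IsDrift a := isDrift_uprSub F 𝒯 q hsub hd
  let f : (F → ℝ) → ℝ := fun z => φ fun e => z ⟨e, hSF e.2⟩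
  have hf : LipschitzWith K f := by
    refine LipschitzWith.of_dist_le_mul fun x y => ?_
    refine (hφ.dist_le_mul _ _).trans ?_
    refine mul_le_mul_of_nonneg_left ?_ K.2
    rw [dist_pi_le_iff dist_nonneg]
    exact fun e => dist_le_pi_dist x y _
  have hlim := law_mainq (prior_subFam hsub hq) hda f K B hf (fun z => hB _) N
  rw [sum_subFam F 𝒯 hsub, sum_subFam F 𝒯 hsub,
    Finset.sum_congr rfl fun T hT => qs_sub q (hsub T hT)] at hlim
  have hlim2 : Tendsto (fun j : ℕ => ∫ z : F → ℝ,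
      f (euler (field a) (1 / 2 ^ j) (N * 2 ^ j) z) ∂(Measure.pi fun _ => logistic)) atTop
      (𝓝 (∫ z : F → ℝ, f (flow a N z) ∂(Measure.pi fun _ => logistic))) := by
    refine tendsto_integral_of_dominated_convergence (fun _ => B) (fun j => ?_)
      (integrable_const _) (fun j => ?_) ?_
    · refine (hf.continuous.measurable.comp ?_).aestronglyMeasurable
      exact measurable_pi_iff.2 fun i =>
        Lim.measurable_euler a (fun i => measurable_upr _ _ i) _ _ i
    · filter_upwards with z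
      exact hB _
    · filter_upwards with z
      refine (hf.continuous.tendsto _).comp ?_
      rw [tendsto_pi_nhds]
      intro e
      obtain ⟨C, hC⟩ := euler_sub_flow (E := F) N
      rw [tendsto_iff_norm_sub_tendsto_zero]
      refine squeeze_zero (fun _ => norm_nonneg _) (fun j => hC a hda j z e) ?_
      have : Tendsto (fun j : ℕ => C * (1 / 2 : ℝ) ^ j) atTop (𝓝 (C * 0)) :=
        (tendsto_pow_atTop_nhds_zero_of_lt_one (by norm_num) (by norm_num)).const_mul C
      simpa only [div_eq_mul_inv, one_mul, inv_pow, mul_zero] using this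
  have := tendsto_nhds_unique hlim2 hlim
  rw [show (∫ z : F → ℝ, φ (fun e => flow a N z ⟨e, hSF e.2⟩)
        ∂(Measure.pi fun _ => logistic)) =
      ∫ z : F → ℝ, f (flow a N z) ∂(Measure.pi fun _ => logistic) from rfl, this]
  congr 1
  refine Finset.sum_congr rfl fun T hT => ?_
  rw [qs_sub q (hsub T hT)]
  congr 1
  refine integral_congr_ae ?_
  filter_upwards with z
  simp only [f, Pi.add_apply, Pi.smul_apply, smul_eq_mul, ind_sub]

/-- the same with the noise given on an ambient probability space -/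
theorem flow_lawq (F : Finset E) (𝒯 : Finset (Finset E)) {q : Finset E → ℝ}
    (hq : Prior 𝒯 q)
    (hsub : ∀ T ∈ 𝒯, T ⊆ F) (hd : IsDrift (upr 𝒯 q)) (S : Finset E) (hSF : S ⊆ F)
    {Ω : Type*} [MeasurableSpace Ω] (ℙ : Measure Ω) (Z : Ω → E → ℝ) (hZ : Measurable Z)
    (hlaw : Measure.map (fun ω (e : F) => Z ω e) ℙ = Measure.pi fun _ => logistic)
    (φ : (S → ℝ) → ℝ) (K : NNReal) (B : ℝ) (hφ : LipschitzWith K φ) (hB : ∀ x, |φ x| ≤ B)
    (N : ℕ) :
    ∫ ω, φ (fun e => flow (upr 𝒯 q) N (Z ω) e) ∂ℙ =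
      (∑ T ∈ 𝒯, q T * ∫ ω, φ (fun e => Z ω e + N * ind T e) ∂ℙ) / ∑ T ∈ 𝒯, q T := by
  have h := flow_law_finq F 𝒯 hq hsub hd S hSF φ K B hφ hB N
  have hZF : Measurable fun ω (e : F) => Z ω e := by fun_prop
  rw [← hlaw] at h
  have hda : IsDrift (upr (subFam F 𝒯) (qs F q)) := isDrift_uprSub F 𝒯 q hsub hd
  have hmf : Measurable fun z : F → ℝ => fun e : S =>
      flow (upr (subFam F 𝒯) (qs F q)) N z ⟨e, hSF e.2⟩ := by
    refine measurable_pi_iff.2 fun e => ?_
    have := measurable_flow (Θ := Unit) (fun _ => upr (subFam F 𝒯) (qs F q)) (fun _ => hda)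
      (fun i => (measurable_upr (subFam F 𝒯) (qs F q) i).comp measurable_snd) N ⟨e, hSF e.2⟩
    exact this.comp (f := fun z : F → ℝ => ((), z)) (by fun_prop)
  have hm1 : Measurable fun z : F → ℝ => φ (fun e : S =>
      flow (upr (subFam F 𝒯) (qs F q)) N z ⟨e, hSF e.2⟩) := hφ.continuous.measurable.comp hmf
  rw [integral_map hZF.aemeasurable hm1.aestronglyMeasurable] at h
  have h2 : ∀ T : Finset E, ∫ z : F → ℝ, φ (fun e => z ⟨e, hSF e.2⟩ + N * ind T e)
      ∂(Measure.map (fun ω (e : F) => Z ω e) ℙ) = ∫ ω, φ (fun e => Z ω e + N * ind T e) ∂ℙ := by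
    intro T
    rw [integral_map hZF.aemeasurable]
    refine (hφ.continuous.measurable.comp ?_).aestronglyMeasurable
    fun_prop
  simp only [h2] at h
  rw [← h]
  refine integral_congr_ae ?_
  filter_upwards with ω
  congr 1
  ext e
  exact flow_comap (fun x : F => (x : E)) (upr 𝒯 q) (upr (subFam F 𝒯) (qs F q))
    (fun w _ x => (upr_subFam F 𝒯 q hsub w x).symm) N (Z ω) ⟨e, hSF e.2⟩

end Core

end Vale.Agent.P143.H536
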