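import Vale.Agent.P143.H536.FlowB

/-!
The limiting configuration of the infinite flow with general priors and its cylinder
probabilities.
-/

namespace Vale.Agent.P143.H536

open MeasureTheory Filter Topology Vale.Agent.P143 Vale.Agent.P143.Lim

variable {E : Type*}

section

variable [Countable E] [DecidableEq E] {Ω : Type*} [MeasurableSpace Ω]
    (ℙ : Measure Ω) [IsProbabilityMeasure ℙ]
    (A : Set E) (F : ℕ → Finset E) (hF : Monotone F) (hA : ∀ e, e ∈ A ↔ ∃ n, e ∈ F n)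
    (𝒯 : ℕ → Finset (Finset E)) (q : ℕ → Finset E → ℝ) (hq : ∀ n, Prior (𝒯 n) (q n))
    (hsub : ∀ n, ∀ T ∈ 𝒯 n, T ⊆ F n)
    (a : (E → ℝ) → E → ℝ) (ha : IsDrift a) (hm : ∀ e, Measurable fun w : E → ℝ => a w e)
    (han : ∀ n, IsDrift (upr (𝒯 n) (q n))) (hconv : ConvDriftB (fun n => upr (𝒯 n) (q n)) a)
    (Z : Ω → E → ℝ) (hZ : Measurable Z)
    (hlaw : ∀ S : Finset E, (S : Set E) ⊆ A →
      Measure.map (fun ω (e : S) => Z ω e) ℙ = Measure.pi fun _ => logistic)

include hF hA hq hsub ha hm han hconv hZ hlaw in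
/-- the law of the infinite flow as a limit of finite averages -/
theorem tendsto_finite (S : Finset E) (hS : (S : Set E) ⊆ A)
    (φ : (S → ℝ) → ℝ) (K : NNReal) (B : ℝ) (hφ : LipschitzWith K φ) (hB : ∀ x, |φ x| ≤ B)
    (N : ℕ) :
    Tendsto (fun n => (∑ T ∈ 𝒯 n, q n T * ∫ ω, φ (fun e => Z ω e + N * ind T e) ∂ℙ) / ∑ T ∈ 𝒯 n, q n T)
      atTop (𝓝 (∫ ω, φ (fun e => flow a N (Z ω) e) ∂ℙ)) := by
  have h1 : ∀ᶠ n in atTop, ∫ ω, φ (fun e => flow (upr (𝒯 n) (q n)) N (Z ω) e) ∂ℙ =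
      (∑ T ∈ 𝒯 n, q n T * ∫ ω, φ (fun e => Z ω e + N * ind T e) ∂ℙ) / ∑ T ∈ 𝒯 n, q n T := by
    filter_upwards [eventually_subset A F hF hA S hS] with n hn
    refine flow_lawq (F n) (𝒯 n) (hq n) (hsub n) (han n) S hn ℙ Z hZ (hlaw _ ?_) φ K B hφ hB N
    intro e he
    exact (hA e).2 ⟨n, he⟩
  refine Tendsto.congr' h1 ?_
  refine tendsto_integral_of_dominated_convergence (fun _ => B) (fun n => ?_)
    (integrable_const _) (fun n => ?_) ?_
  · refine (hφ.continuous.measurable.comp (measurable_pi_iff.2 fun e => ?_)).aestronglyMeasurable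
    exact measurable_flow_comp (upr (𝒯 n) (q n)) (han n) (fun e => measurable_upr _ _ e) Z hZ N e
  · filter_upwards with ω using hB _
  · filter_upwards with ω
    refine (hφ.continuous.tendsto _).comp ?_
    rw [tendsto_pi_nhds]
    intro e
    exact flow_tendstoB a (fun n => upr (𝒯 n) (q n)) ha han hconv N (Z ω) e

include hF hA hq hsub ha hm han hconv hZ hlaw in
/-- the position at time `N` is rarely in the middle -/
theorem prob_middle (e : E) (he : e ∈ A) (N : ℕ) :
    ℙ.real {ω | |flow a N (Z ω) e / N - 1 / 2| ≤ 1 / 8} ≤ 2 * Real.exp (-((N : ℝ) / 4)) := by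
  rcases Nat.eq_zero_or_pos N with rfl | hN
  · have h1 : ℙ.real {ω | |flow a 0 (Z ω) e / (0 : ℕ) - 1 / 2| ≤ 1 / 8} ≤ 1 := measureReal_le_one
    refine h1.trans ?_
    norm_num
  have hN1 : (1 : ℝ) ≤ N := by exact_mod_cast hN
  have hN0 : (0 : ℝ) < N := by linarith only [hN1]
  obtain ⟨S, hSe⟩ : ∃ S : Finset E, S = {e} := ⟨_, rfl⟩
  have heS : e ∈ S := by rw [hSe]; exact Finset.mem_singleton_self e
  obtain ⟨φ, hφd⟩ : ∃ φ : (S → ℝ) → ℝ, ∀ x, φ x = cl (2 - 8 * |x ⟨e, heS⟩ / N - 1 / 2|) :=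
    ⟨_, fun _ => rfl⟩
  have hφ : LipschitzWith 8 φ := by
    refine LipschitzWith.of_dist_le_mul fun x y => ?_
    have h1 : dist (x ⟨e, heS⟩) (y ⟨e, heS⟩) ≤ dist x y := dist_le_pi_dist x y _
    rw [Real.dist_eq, hφd, hφd]
    rw [Real.dist_eq] at h1
    refine (cl_lip _ _).trans ?_
    have h2 : |(2 - 8 * |x ⟨e, heS⟩ / N - 1 / 2|) - (2 - 8 * |y ⟨e, heS⟩ / N - 1 / 2|)| ≤
        8 * |(x ⟨e, heS⟩ / N - 1 / 2) - (y ⟨e, heS⟩ / N - 1 / 2)| := by
      rw [show (2 - 8 * |x ⟨e, heS⟩ / N - 1 / 2|) - (2 - 8 * |y ⟨e, heS⟩ / N - 1 / 2|) =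
        8 * (|y ⟨e, heS⟩ / N - 1 / 2| - |x ⟨e, heS⟩ / N - 1 / 2|) by ring, abs_mul,
        abs_of_pos (by norm_num : (0 : ℝ) < 8), abs_sub_comm (x ⟨e, heS⟩ / N - 1 / 2)]
      exact mul_le_mul_of_nonneg_left (abs_abs_sub_abs_le_abs_sub _ _) (by norm_num)
    refine h2.trans ?_
    rw [show (x ⟨e, heS⟩ / N - 1 / 2) - (y ⟨e, heS⟩ / N - 1 / 2) =
      (x ⟨e, heS⟩ - y ⟨e, heS⟩) / N by ring, abs_div, abs_of_pos hN0]
    have h3 : |x ⟨e, heS⟩ - y ⟨e, heS⟩| / N ≤ |x ⟨e, heS⟩ - y ⟨e, heS⟩| :=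
      div_le_self (abs_nonneg _) hN1
    have : ((8 : NNReal) : ℝ) = 8 := rfl
    rw [this]
    linarith only [h1, h3]
  have hφ0 : ∀ x, 0 ≤ φ x := fun x => by rw [hφd]; exact cl_nonneg _
  have hφ1 : ∀ x, φ x ≤ 1 := fun x => by rw [hφd]; exact cl_le_one _
  have hS : (S : Set E) ⊆ A := by rw [hSe]; simpa using he
  have hlim := tendsto_finite ℙ A F hF hA 𝒯 q hq hsub a ha hm han hconv Z hZ hlaw S hS φ 8 1 hφ
    (fun x => abs_le.2 ⟨by linarith only [hφ0 x], hφ1 x⟩) N
  -- the limit is at most the tail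
  have hup : ∫ ω, φ (fun e => flow a N (Z ω) e) ∂ℙ ≤ 2 * Real.exp (-((N : ℝ) / 4)) := by
    refine le_of_tendsto' hlim fun n => ?_
    have hc : 0 < ∑ T ∈ 𝒯 n, q n T := (hq n).pos
    rw [div_le_iff₀ hc]
    have hterm : ∀ T ∈ 𝒯 n, ∫ ω, φ (fun e => Z ω e + N * ind T e) ∂ℙ ≤
        2 * Real.exp (-((N : ℝ) / 4)) := by
      intro T _
      refine le_trans ?_ (tail_Z ℙ A Z hZ hlaw e he ((N : ℝ) / 4))
      have hms : MeasurableSet {ω | (N : ℝ) / 4 ≤ |Z ω e|} :=
        measurableSet_le measurable_const (by fun_prop)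
      rw [← integral_indicator_one hms]
      refine integral_mono_of_nonneg ?_ ?_ ?_
      · filter_upwards with ω using hφ0 _
      · exact (integrable_const (1 : ℝ)).indicator hms
      · filter_upwards with ω
        by_cases hω : (N : ℝ) / 4 ≤ |Z ω e|
        · rw [Set.indicator_of_mem (by exact hω)]
          exact hφ1 _
        · rw [Set.indicator_of_notMem (by exact hω), hφd]
          push Not at hω
          have hz := abs_lt.1 hω
          refine (cl_of_nonpos ?_).le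
          have hq : (1 : ℝ) / 4 ≤ |(Z ω e + N * ind T e) / N - 1 / 2| := by
            unfold ind
            split_ifs with h
            · refine le_trans ?_ (le_abs_self _)
              have : (Z ω e + N * 1) / N = Z ω e / N + 1 := by (clear * - hN; field_simp)
              rw [this]
              have : -(1 / 4) < Z ω e / N := by rw [lt_div_iff₀ hN0]; linarith only [hz]
              linarith only [this]
            · refine le_trans ?_ (neg_le_abs _)
              have : (Z ω e + N * 0) / N = Z ω e / N := by simp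
              rw [this]
              have : Z ω e / N < 1 / 4 := by rw [div_lt_iff₀ hN0]; linarith only [hz]
              linarith only [this]
          linarith only [hq]
    calc ∑ T ∈ 𝒯 n, q n T * ∫ ω, φ (fun e => Z ω e + N * ind T e) ∂ℙ
        ≤ ∑ T ∈ 𝒯 n, q n T * (2 * Real.exp (-((N : ℝ) / 4))) :=
          Finset.sum_le_sum fun T hT =>
            mul_le_mul_of_nonneg_left (hterm T hT) ((hq n).nonneg T hT)
      _ = 2 * Real.exp (-((N : ℝ) / 4)) * ∑ T ∈ 𝒯 n, q n T := by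
          rw [← Finset.sum_mul]; ring
  refine le_trans ?_ hup
  have hmf := measurable_flow_comp a ha hm Z hZ N e
  have hms : MeasurableSet {ω | |flow a N (Z ω) e / N - 1 / 2| ≤ 1 / 8} :=
    measurableSet_le (by fun_prop) measurable_const
  have hmφ : Measurable fun ω => φ (fun e => flow a N (Z ω) e) :=
    hφ.continuous.measurable.comp (measurable_pi_iff.2 fun e' =>
      measurable_flow_comp a ha hm Z hZ N e')
  rw [← integral_indicator_one hms]
  refine integral_mono_of_nonneg ?_ ?_ ?_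
  · filter_upwards with ω
    exact Set.indicator_nonneg (fun _ _ => zero_le_one) _
  · refine Integrable.mono' (integrable_const (1 : ℝ)) hmφ.aestronglyMeasurable ?_
    filter_upwards with ω
    rw [Real.norm_eq_abs, abs_of_nonneg (hφ0 _)]
    exact hφ1 _
  · filter_upwards with ω
    by_cases hω : |flow a N (Z ω) e / N - 1 / 2| ≤ 1 / 8
    · rw [Set.indicator_of_mem (by exact hω), hφd]
      simp only [Pi.one_apply]
      rw [cl_of_one_le]
      linarith only [hω]
    · rw [Set.indicator_of_notMem (by exact hω)]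
      exact hφ0 _

include hF hA hq hsub ha hm han hconv hZ hlaw in
/-- almost surely every element eventually stays high or stays low -/
theorem ae_dichotomy (e : E) (he : e ∈ A) :
    ∀ᵐ ω ∂ℙ, (∀ᶠ N : ℕ in atTop, 5 / 8 * (N : ℝ) < flow a N (Z ω) e) ∨
      (∀ᶠ N : ℕ in atTop, flow a N (Z ω) e < 3 / 8 * (N : ℝ)) := by
  have hsum : ∑' N : ℕ, ℙ {ω | |flow a N (Z ω) e / N - 1 / 2| ≤ 1 / 8} ≠ ⊤ := by
    have h1 : ∀ N : ℕ, ℙ {ω | |flow a N (Z ω) e / N - 1 / 2| ≤ 1 / 8} ≤
        ENNReal.ofReal (2 * Real.exp (-((N : ℝ) / 4))) := by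
      intro N
      rw [← ofReal_measureReal]
      exact ENNReal.ofReal_le_ofReal
        (prob_middle ℙ A F hF hA 𝒯 q hq hsub a ha hm han hconv Z hZ hlaw e he N)
    refine ne_top_of_le_ne_top ?_ (ENNReal.tsum_le_tsum h1)
    exact summable_tail.tsum_ofReal_ne_top
  filter_upwards [ae_eventually_notMem hsum] with ω hω
  obtain ⟨N0, hN0⟩ := eventually_atTop.1 hω
  have hstep : ∀ N, |flow a (N + 1) (Z ω) e - flow a N (Z ω) e| ≤ 1 := fun N =>
    flow_succ_sub a ha N (Z ω) e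
  have hdi : ∀ N : ℕ, N0 ≤ N → 1 ≤ N → 5 / 8 * (N : ℝ) < flow a N (Z ω) e ∨
      flow a N (Z ω) e < 3 / 8 * (N : ℝ) := by
    intro N hN hN1
    have h := hN0 N hN
    have hNpos : (0 : ℝ) < N := by exact_mod_cast hN1
    have h' : ¬ |flow a N (Z ω) e / N - 1 / 2| ≤ 1 / 8 := h
    rw [not_le, lt_abs] at h'
    rcases h' with h' | h'
    · left
      have : 5 / 8 < flow a N (Z ω) e / N := by linarith only [h']
      rwa [lt_div_iff₀ hNpos] at this
    · right
      have : flow a N (Z ω) e / N < 3 / 8 := by linarith only [h']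
      rwa [div_lt_iff₀ hNpos] at this
  by_cases hlow : ∃ N1, N0 ≤ N1 ∧ 4 ≤ N1 ∧ flow a N1 (Z ω) e < 3 / 8 * (N1 : ℝ)
  · right
    obtain ⟨N1, h1, h2, h3⟩ := hlow
    refine eventually_atTop.2 ⟨N1, fun N hN => ?_⟩
    induction N, hN using Nat.le_induction with
    | base => exact h3
    | succ N hN ih =>
      rcases hdi (N + 1) (by omega) (by omega) with h | h
      · exfalso
        have h4 := (abs_le.1 (hstep N)).2
        have h5 : (4 : ℝ) ≤ N := by exact_mod_cast h2.trans hN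
        push_cast at h
        linarith only [ih, h4, h5, h]
      · exact h
  · left
    push Not at hlow
    refine eventually_atTop.2 ⟨max N0 4, fun N hN => ?_⟩
    rcases hdi N (le_trans (le_max_left _ _) hN) (by have := le_trans (le_max_right N0 4) hN; omega)
      with h | h
    · exact h
    · exact absurd h (not_lt.2 (hlow N (le_trans (le_max_left _ _) hN)
        (le_trans (le_max_right _ _) hN)))

include hF hA hq hsub ha hm han hconv hZ hlaw in
/-- the tests along the infinite flow converge to the probability of the pattern -/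
theorem tendsto_test (S B : Finset E) (hS : (S : Set E) ⊆ A) :
    Tendsto (fun N : ℕ => ∫ ω, test S B N (fun e => flow a N (Z ω) e) ∂ℙ) atTop
      (𝓝 (ℙ.real {ω | ∀ e ∈ S, (e ∈ limitSet a (Z ω) ↔ e ∈ B)})) := by
  classical
  have hms : MeasurableSet {ω | ∀ e ∈ S, (e ∈ limitSet a (Z ω) ↔ e ∈ B)} := by
    have : {ω | ∀ e ∈ S, (e ∈ limitSet a (Z ω) ↔ e ∈ B)} =
        ⋂ e ∈ S, {ω | e ∈ limitSet a (Z ω) ↔ e ∈ B} := by
      ext ω; simp only [Set.mem_ofPred_eq, Set.mem_iInter]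
    rw [this]
    refine Finset.measurableSet_biInter S fun e _ => ?_
    have h1 := measurableSet_limit a ha hm Z hZ e
    by_cases he : e ∈ B
    · have : {ω | e ∈ limitSet a (Z ω) ↔ e ∈ B} = {ω | e ∈ limitSet a (Z ω)} := by
        ext ω; simp [he]
      rw [this]
      exact h1
    · have : {ω | e ∈ limitSet a (Z ω) ↔ e ∈ B} = {ω | e ∈ limitSet a (Z ω)}ᶜ := by
        ext ω; simp [he]
      rw [this]
      exact h1.compl
  rw [← integral_indicator_one hms]
  have hae : ∀ᵐ ω ∂ℙ, ∀ e ∈ S, (∀ᶠ N : ℕ in atTop, 5 / 8 * (N : ℝ) < flow a N (Z ω) e) ∨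
      (∀ᶠ N : ℕ in atTop, flow a N (Z ω) e < 3 / 8 * (N : ℝ)) :=
    (ae_ball_iff S.countable_toSet).2 fun e he =>
      ae_dichotomy ℙ A F hF hA 𝒯 q hq hsub a ha hm han hconv Z hZ hlaw e (hS he)
  refine Tendsto.congr' (f₁ := fun N : ℕ => ∫ ω, test S B (max N 1)
    (fun e => flow a (max N 1) (Z ω) e) ∂ℙ) ?_ ?_
  · filter_upwards [eventually_ge_atTop 1] with N hN
    rw [max_eq_left hN]
  refine tendsto_integral_of_dominated_convergence (fun _ => (1 : ℝ)) (fun N => ?_)
    (integrable_const _) (fun N => ?_) ?_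
  · exact ((test_lip S B (max N 1) (le_max_right _ _)).continuous.measurable.comp
      (measurable_pi_iff.2 fun e =>
        measurable_flow_comp a ha hm Z hZ (max N 1) e)).aestronglyMeasurable
  · filter_upwards with ω
    rw [Real.norm_eq_abs, abs_of_nonneg (test_nonneg _ _ _ _)]
    exact test_le_one _ _ _ _
  · filter_upwards [hae] with ω hω
    have hev : ∀ᶠ N : ℕ in atTop, ∀ e ∈ S, disc B N e (flow a N (Z ω) e) =
        if (e ∈ limitSet a (Z ω) ↔ e ∈ B) then 0 else 1 := by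
      rw [Filter.eventually_all_finset]
      intro e he
      rcases hω e he with h | h
      · have hmem : e ∈ limitSet a (Z ω) := by
          filter_upwards [h] with N hN
          have : (0 : ℝ) ≤ N := Nat.cast_nonneg N
          linarith only [hN]
        filter_upwards [h, eventually_ge_atTop 1] with N hN hN1
        rw [disc_high B N hN1 e _ hN]
        simp [hmem]
      · have hmem : e ∉ limitSet a (Z ω) := by
          intro hmem
          have hmem' : ∀ᶠ N : ℕ in atTop, (N : ℝ) / 2 ≤ flow a N (Z ω) e := hmem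
          obtain ⟨N, h1, h2, h3⟩ := (h.and (hmem'.and (eventually_ge_atTop 1))).exists
          have : (1 : ℝ) ≤ N := by exact_mod_cast h3
          linarith only [h1, h2]
        filter_upwards [h, eventually_ge_atTop 1] with N hN hN1
        rw [disc_low B N hN1 e _ hN]
        by_cases heB : e ∈ B <;> simp [hmem, heB]
    have hev2 : ∀ᶠ N : ℕ in atTop, test S B (max N 1) (fun e => flow a (max N 1) (Z ω) e) =
        Set.indicator {ω | ∀ e ∈ S, (e ∈ limitSet a (Z ω) ↔ e ∈ B)} (1 : Ω → ℝ) ω := by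
      filter_upwards [hev, eventually_ge_atTop 1] with N hN hN1
      rw [max_eq_left hN1]
      by_cases hω : ∀ e ∈ S, (e ∈ limitSet a (Z ω) ↔ e ∈ B)
      · rw [Set.indicator_of_mem (by exact hω)]
        exact test_eq_one S B N _ fun e => by rw [hN e e.2, if_pos (hω e e.2)]
      · rw [Set.indicator_of_notMem (by exact hω)]
        push Not at hω
        obtain ⟨e, heS, he⟩ := hω
        have he' : ¬ (e ∈ limitSet a (Z ω) ↔ e ∈ B) := by (clear * - he; tauto)
        exact test_eq_zero S B N _ ⟨e, heS⟩ (by rw [hN e heS, if_neg he'])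
    exact tendsto_const_nhds.congr' (hev2.mono fun N h => h.symm)

end

/-- **The limiting configuration**: if the finite priors converge in the sense of drifts, the
cylinder probabilities of the finite priors converge to those of the limiting configuration of the
infinite flow. -/
theorem limit_mainq [Countable E] [DecidableEq E] {Ω : Type*} [MeasurableSpace Ω]
    (ℙ : Measure Ω) [IsProbabilityMeasure ℙ]
    (A : Set E) (F : ℕ → Finset E) (hF : Monotone F) (hA : ∀ e, e ∈ A ↔ ∃ n, e ∈ F n)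
    (𝒯 : ℕ → Finset (Finset E)) (q : ℕ → Finset E → ℝ) (hq : ∀ n, Prior (𝒯 n) (q n))
    (hsub : ∀ n, ∀ T ∈ 𝒯 n, T ⊆ F n)
    (a : (E → ℝ) → E → ℝ) (ha : IsDrift a) (hm : ∀ e, Measurable fun w : E → ℝ => a w e)
    (han : ∀ n, IsDrift (upr (𝒯 n) (q n))) (hconv : ConvDriftB (fun n => upr (𝒯 n) (q n)) a)
    (Z : Ω → E → ℝ) (hZ : Measurable Z)
    (hlaw : ∀ S : Finset E, (S : Set E) ⊆ A →
      Measure.map (fun ω (e : S) => Z ω e) ℙ = Measure.pi fun _ => logistic)
    (S B : Finset E) (hS : (S : Set E) ⊆ A) (hB : B ⊆ S) :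
    Tendsto (fun n => (∑ T ∈ (𝒯 n).filter (fun T => T ∩ S = B), q n T) / ∑ T ∈ 𝒯 n, q n T) atTop
      (𝓝 (ℙ.real {ω | ∀ e ∈ S, (e ∈ limitSet a (Z ω) ↔ e ∈ B)})) := by
  set r := ℙ.real {ω | ∀ e ∈ S, (e ∈ limitSet a (Z ω) ↔ e ∈ B)} with hr
  rw [Metric.tendsto_atTop]
  intro ε hε
  have h1 := tendsto_test ℙ A F hF hA 𝒯 q hq hsub a ha hm han hconv Z hZ hlaw S B hS
  have h2 : Tendsto (fun N : ℕ => (S.card : ℝ) * (2 * Real.exp (-((N : ℝ) / 4)))) atTop
      (𝓝 0) := by
    have := summable_tail.tendsto_atTop_zero.const_mul (S.card : ℝ)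
    simpa only [mul_zero] using this
  obtain ⟨N, hN1, hN2, hN3⟩ := ((Metric.tendsto_nhds.1 h1 (ε / 3) (by positivity)).and
    ((h2.eventually_lt_const (by positivity : (0 : ℝ) < ε / 3)).and
      (eventually_ge_atTop 1))).exists
  have h3 := tendsto_finite ℙ A F hF hA 𝒯 q hq hsub a ha hm han hconv Z hZ hlaw S hS
    (test S B N) (4 * S.card) 1 (test_lip S B N hN3)
    (fun x => abs_le.2 ⟨by linarith only [test_nonneg S B N x], test_le_one S B N x⟩) N
  obtain ⟨n0, hn0⟩ := Metric.tendsto_atTop.1 h3 (ε / 3) (by positivity)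
  refine ⟨n0, fun n hn => ?_⟩
  have h4 := hn0 n hn
  have hc : 0 < ∑ T ∈ 𝒯 n, q n T := (hq n).pos
  have h5 : |(∑ T ∈ (𝒯 n).filter (fun T => T ∩ S = B), q n T) / ∑ T ∈ 𝒯 n, q n T -
      (∑ T ∈ 𝒯 n, q n T * ∫ ω, test S B N (fun e => Z ω e + N * ind T e) ∂ℙ) /
        ∑ T ∈ 𝒯 n, q n T| ≤
      S.card * (2 * Real.exp (-((N : ℝ) / 4))) := by
    have h6 : ∑ T ∈ (𝒯 n).filter (fun T => T ∩ S = B), q n T =
        ∑ T ∈ 𝒯 n, q n T * (if T ∩ S = B then (1 : ℝ) else 0) := by
      rw [Finset.sum_filter]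
      refine Finset.sum_congr rfl fun T _ => ?_
      split_ifs <;> simp
    rw [h6, ← sub_div, ← Finset.sum_sub_distrib, abs_div, abs_of_pos hc, div_le_iff₀ hc]
    refine (Finset.abs_sum_le_sum_abs _ _).trans ?_
    have h7 : ∀ T ∈ 𝒯 n, |q n T * (if T ∩ S = B then (1 : ℝ) else 0) -
        q n T * ∫ ω, test S B N (fun e => Z ω e + N * ind T e) ∂ℙ| ≤
        q n T * (S.card * (2 * Real.exp (-((N : ℝ) / 4)))) := by
      intro T hT
      rw [← mul_sub, abs_mul, abs_of_nonneg ((hq n).nonneg T hT), abs_sub_comm]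
      exact mul_le_mul_of_nonneg_left (test_shift ℙ A Z hZ hlaw S B hS hB N hN3 T)
        ((hq n).nonneg T hT)
    refine (Finset.sum_le_sum h7).trans ?_
    rw [← Finset.sum_mul]
    exact le_of_eq (by ring)
  rw [Real.dist_eq] at h4 hN1 ⊢
  have h8 := abs_sub_le ((∑ T ∈ (𝒯 n).filter (fun T => T ∩ S = B), q n T) / ∑ T ∈ 𝒯 n, q n T)
    ((∑ T ∈ 𝒯 n, q n T * ∫ ω, test S B N (fun e => Z ω e + N * ind T e) ∂ℙ) /
      ∑ T ∈ 𝒯 n, q n T) r
  have h9 := abs_sub_le
    ((∑ T ∈ 𝒯 n, q n T * ∫ ω, test S B N (fun e => Z ω e + N * ind T e) ∂ℙ) /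
      ∑ T ∈ 𝒯 n, q n T)
    (∫ ω, test S B N (fun e => flow a N (Z ω) e) ∂ℙ) r
  linarith

end Vale.Agent.P143.H536
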