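import Vale.Agent.P143.H536.Factor

/-!
Noise that is given only on a part of the index set, and locality of the flow.
-/

namespace Vale.Agent.P143.H536

open MeasureTheory Filter Topology Vale.Agent.P143 Vale.Agent.P143.Lim unitInterval

section Glue

variable {E : Type*}

open Classical in
/-- completing noise on `A` by independent noise off `A` -/
noncomputable def glue {Ω : Type*} (A : Set E) (N : Ω → E → ℝ) (p : Ω × (E → ℝ)) (e : E) : ℝ :=
  if e ∈ A then N p.1 e else p.2 e

theorem measurable_glue {Ω : Type*} [MeasurableSpace Ω] (A : Set E) (N : Ω → E → ℝ)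
    (hN : Measurable N) : Measurable (glue A N) := by
  classical
  refine measurable_pi_iff.2 fun e => ?_
  unfold glue
  by_cases he : e ∈ A
  · simp only [he, if_true]
    fun_prop
  · simp only [he, if_false]
    fun_prop

theorem map_glue {Ω : Type*} [MeasurableSpace Ω] (A : Set E) (P : Measure Ω)
    [IsProbabilityMeasure P] (κ : Measure ℝ) [IsProbabilityMeasure κ] (N : Ω → E → ℝ)
    (hN : Measurable N)
    (hlaw : P.map (fun ω (e : A) => N ω e) = Measure.infinitePi fun _ : A => κ) :
    (P.prod (Measure.infinitePi fun _ : E => κ)).map (glue A N) =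
      Measure.infinitePi fun _ : E => κ := by
  classical
  refine Measure.eq_infinitePi _ fun s t ht => ?_
  rw [Measure.map_apply (measurable_glue A N hN) (.pi s.countable_toSet fun _ _ => ht _)]
  have h1 : glue A N ⁻¹' (Set.pi (↑s) t) =
      ((fun ω (e : A) => N ω e) ⁻¹' (Set.pi (↑(s.subtype (· ∈ A))) fun e : A => t e)) ×ˢ
        (Set.pi (↑(s.filter (· ∉ A))) t) := by
    ext ⟨ω, y⟩
    simp only [Set.mem_preimage, Set.mem_pi, Finset.mem_coe, Set.mem_prod, Finset.mem_subtype,
      Finset.mem_filter, glue, Subtype.forall]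
    constructor
    · intro h
      refine ⟨fun e he hs => ?_, fun e he => ?_⟩
      · simpa only [he, if_true] using h e hs
      · simpa only [he.2, if_false] using h e he.1
    · rintro ⟨h1, h2⟩ e he
      by_cases heA : e ∈ A
      · simpa only [heA, if_true] using h1 e heA he
      · simpa only [heA, if_false] using h2 e ⟨he, heA⟩
  rw [h1, Measure.prod_prod, Measure.infinitePi_pi _ (fun e _ => ht e),
    ← Measure.map_apply (by fun_prop) (.pi (s.subtype (· ∈ A)).countable_toSet fun _ _ => ht _),
    hlaw, Measure.infinitePi_pi (fun _ : A => κ) (t := fun e : A => t e) (fun e _ => ht e),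
    Finset.prod_subtype_eq_prod_filter (fun e => κ (t e)),
    Finset.prod_filter_mul_prod_filter_not]

end Glue

section Local

variable {E : Type*}

/-- on `A` the values of `a` depend only on the weights on `A` -/
def LocalOn (A : Set E) (a : (E → ℝ) → E → ℝ) : Prop :=
  ∀ (w w' : E → ℝ) (K : ℝ), (∀ f, 0 < w f) → (∀ f, 0 < w' f) → (∀ f, |Real.log (w f)| ≤ K) →
    (∀ f, |Real.log (w' f)| ≤ K) → (∀ f ∈ A, w f = w' f) → ∀ e ∈ A, a w e = a w' e

theorem euler_local {A : Set E} {a : (E → ℝ) → E → ℝ} (h : LocalOn A a) (t : ℝ) (k : ℕ)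
    {z z' : E → ℝ} (hz : ∀ e ∈ A, z e = z' e) (e : E) (he : e ∈ A) :
    euler (field a) t k z e = euler (field a) t k z' e := by
  induction k generalizing e with
  | zero => exact hz e he
  | succ k ih =>
    have h1 := h (fun f => wt (k * t) (euler (field a) t k z f))
      (fun f => wt (k * t) (euler (field a) t k z' f)) |k * t| (fun _ => wt_pos _ _)
      (fun _ => wt_pos _ _) (fun _ => abs_log_wt_le _ _) (fun _ => abs_log_wt_le _ _)
      (fun f hf => by rw [ih f hf]) e he
    simp only [euler, field]
    rw [ih e he, h1]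

theorem flow_local {A : Set E} {a : (E → ℝ) → E → ℝ} (h : LocalOn A a) (N : ℕ)
    {z z' : E → ℝ} (hz : ∀ e ∈ A, z e = z' e) (e : E) (he : e ∈ A) :
    flow a N z e = flow a N z' e := by
  unfold flow
  simp only [fun k : ℕ => euler_local h (1 / 2 ^ k) (N * 2 ^ k) hz e he]

theorem euler_zero {a : (E → ℝ) → E → ℝ} {e : E}
    (h : ∀ w, (∀ f, 0 < w f) → a w e = 0) (t : ℝ) (k : ℕ) (z : E → ℝ) :
    euler (field a) t k z e = z e := by
  induction k with
  | zero => rfl
  | succ k ih =>
    simp only [euler, field]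
    rw [ih, h _ (fun _ => wt_pos _ _)]
    simp

theorem flow_zero_drift {a : (E → ℝ) → E → ℝ} {e : E}
    (h : ∀ w, (∀ f, 0 < w f) → a w e = 0) (N : ℕ) (z : E → ℝ) : flow a N z e = z e := by
  unfold flow
  simp only [euler_zero h]
  exact tendsto_const_nhds.limUnder_eq

theorem conf_local {A : Set E} {a : (E → ℝ) → E → ℝ} (h : LocalOn A a)
    (h0 : ∀ e ∉ A, ∀ w, (∀ f, 0 < w f) → a w e = 0)
    {z z' : E → ℝ} (hz : ∀ e ∈ A, z e = z' e) : conf a z = conf a z' := by
  ext e
  rw [Bool.eq_iff_iff, conf_eq_true, conf_eq_true]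
  unfold limitSet
  simp only [Set.mem_ofPred_eq]
  by_cases he : e ∈ A
  · simp only [fun N : ℕ => flow_local h N hz e he]
  · simp only [flow_zero_drift (h0 e he)]
    have key : ∀ c : ℝ, ¬ ∀ᶠ N : ℕ in atTop, (N : ℝ) / 2 ≤ c := by
      intro c hc
      have h1 : Tendsto (fun N : ℕ => (N : ℝ) / 2) atTop atTop :=
        tendsto_natCast_atTop_atTop.atTop_div_const (by norm_num)
      obtain ⟨N, hN1, hN2⟩ := (hc.and (h1.eventually_gt_atTop c)).exists
      exact absurd hN1 (not_le.2 hN2)
    exact iff_of_false (key _) (key _)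

/-- the law is produced also from noise that is independent on `A` only -/
theorem Good.law_local [Countable E] {a : (E → ℝ) → E → ℝ} {μ : Measure (E → Bool)}
    (h : Good a μ) {A : Set E} (hA : LocalOn A a)
    (h0 : ∀ e ∉ A, ∀ w, (∀ f, 0 < w f) → a w e = 0)
    {Ω : Type*} [MeasurableSpace Ω] (P : Measure Ω) [IsProbabilityMeasure P]
    (Z : Ω → E → ℝ) (hZ : Measurable Z)
    (hlaw : P.map (fun ω (e : A) => Z ω e) = Measure.infinitePi fun _ : A => logistic) :
    P.map (fun ω => conf a (Z ω)) = μ := by
  have h1 := h.law' (P.prod (Measure.infinitePi fun _ : E => logistic)) (glue A Z)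
    (measurable_glue A Z hZ) (map_glue A P logistic Z hZ hlaw)
  have h2 : (fun p : Ω × (E → ℝ) => conf a (glue A Z p)) =
      (fun ω => conf a (Z ω)) ∘ Prod.fst := by
    ext p e
    have h3 : conf a (glue A Z p) = conf a (Z p.1) := conf_local hA h0 fun e he => by
      simp only [glue, he, if_true]
    simp only [Function.comp_apply, h3]
  have hmc : Measurable fun ω => conf a (Z ω) :=
    (measurable_conf_fixed a h.drift h.meas).comp hZ
  rw [h2, ← Measure.map_map hmc measurable_fst] at h1
  rw [← h1, Measure.map_fst_prod, measure_univ, one_smul]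

end Local

end Vale.Agent.P143.H536
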