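import Vale.Agent.P143.H71.Loc

/-!
Determinantal measures on the edges of locally finite graphs as factors of vertex labels, and
invariant determinantal measures on countable sets with an action with finite stabilizers.
-/

namespace Vale.Agent.P143.H536

open MeasureTheory Filter Topology Vale.Agent.P143 Vale.Agent.P143.Lim unitInterval SimpleGraph
open Vale.Agent.P143.H71 (dft IsDeterminantal)

section Graph

/-- the rule for edge sets: the configuration obtained from the edge noise of the graph -/
noncomputable def grul {V : Type*} (G : SimpleGraph V) (μ : Measure (Sym2 V → Bool))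
    (U : V → I) : Sym2 V → Bool := H71.conf μ (edgeNoise G U)

theorem measurable_grul {V : Type*} [Countable V] :
    Measurable fun p : SimpleGraph V × Measure (Sym2 V → Bool) × (V → I) =>
      grul p.1 p.2.1 p.2.2 := by
  have : Countable (Sym2 V) := Quotient.countable
  have h1 : Measurable fun p : SimpleGraph V × Measure (Sym2 V → Bool) × (V → I) =>
      (p.2.1, edgeNoise p.1 p.2.2) := by
    refine (measurable_fst.comp measurable_snd).prodMk (measurable_pi_iff.2 fun e => ?_)
    have h0 : Measurable fun p : SimpleGraph V × Measure (Sym2 V → Bool) × (V → I) =>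
        (p.1, p.2.2) := measurable_fst.prodMk (measurable_snd.comp measurable_snd)
    exact (measurable_edgeNoise (V := V) e).comp h0
  have h2 := (H71.measurable_conf (E := Sym2 V)).comp h1
  exact h2

theorem grul_map {V V' : Type*} (τ : V ≃ V') (G : SimpleGraph V) (μ : Measure (Sym2 V → Bool))
    (U : V → I) (e : Sym2 V) :
    grul (G.map τ.toEmbedding) (μ.map fun ω f => ω (f.map τ.symm)) (U ∘ τ.symm) (e.map τ) =
      grul G μ U e := by
  unfold grul
  rw [H71.conf_eq, H71.conf_eq]
  have h0 : (μ.map fun (ω : Sym2 V → Bool) (f : Sym2 V') => ω (f.map τ.symm)) =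
      H71.tr (symE τ) μ := rfl
  rw [h0]
  have h := conf_comap (symE τ : Sym2 V → Sym2 V') (dft (H71.tr (symE τ) μ)) (dft μ)
    (fun w _ x => H71.dft_tr (symE τ) μ w x)
    (edgeNoise (G.map τ.toEmbedding) (U ∘ τ.symm)) e
  rw [symE_apply] at h
  rw [h]
  congr 1
  funext f
  exact edgeNoise_map τ G U f

theorem grul_law {V : Type*} [Countable V] (G : SimpleGraph V)
    (hG : ∀ v, (G.neighborSet v).Finite) {μ : Measure (Sym2 V → Bool)}
    (hμ : IsDeterminantal μ) (hA : ∀ e ∉ G.edgeSet, μ {ω | ω e = true} = 0) :
    (iidLabels V).map (grul G μ) = μ := by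
  have : Countable (Sym2 V) := Quotient.countable
  have hp : IsProbabilityMeasure (iidLabels V) := by unfold iidLabels; infer_instance
  have hA' : ∀ e ∉ G.edgeSet, μ.real {ω | ω e = true} = 0 := fun e he => by
    rw [measureReal_def, hA e he, ENNReal.toReal_zero]
  have h := (H71.good_dft hμ).law_local (H71.localOn_dft hμ hA')
    (fun e he w _ => H71.dft_eq_zero hμ (hA' e he) w) (iidLabels V) (fun U => edgeNoise G U)
    (measurable_edgeNoise_fixed G)
    (map_edgeNoiseAux logistic G.Adj hG G.edgeSet (fun v w h => by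
      rw [SimpleGraph.mem_edgeSet] at h
      exact ⟨h, h.ne⟩))
  have h1 : (fun U : V → I => conf (dft μ) (edgeNoise G U)) = grul G μ := by
    funext U
    exact (H71.conf_eq μ _).symm
  rwa [h1] at h

end Graph

section Group

/-- invariant determinantal measures are factors of independent labels on the group -/
theorem isFactor_of_invariant {Γ E : Type*} [Group Γ] [MulAction Γ E] [Countable E]
    (hΓ : FinStab Γ E) {μ : Measure (E → Bool)} (hμ : IsDeterminantal μ)
    (hinv : ∀ γ : Γ, μ.map (fun ω x => ω (γ⁻¹ • x)) = μ) :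
    ∃ Φ : (Γ → I) → E → Bool, Measurable Φ ∧
      (∀ (γ : Γ) (U : Γ → I) (x : E), Φ (fun g => U (γ⁻¹ * g)) x = Φ U (γ⁻¹ • x)) ∧
      μ = (iidLabels Γ).map Φ :=
  (H71.good_dft hμ).isFactor hΓ fun γ w _ x => H71.dft_smul hinv γ w x

/-- the action of a group on the edges of its Cayley graph -/
@[instance_reducible]
noncomputable def edgeAction {Γ : Type*} [Group Γ] (S : Set Γ) :
    MulAction Γ (mulCayley S).edgeSet where
  smul γ e := (leftMul S γ).mapEdgeSet e
  one_smul e := by
    apply Subtype.ext
    change Sym2.map (fun x => 1 * x) e.1 = e.1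
    simp
  mul_smul γ γ' e := by
    apply Subtype.ext
    change Sym2.map (fun x => γ * γ' * x) e.1 =
      Sym2.map (fun x => γ * x) (Sym2.map (fun x => γ' * x) e.1)
    rw [Sym2.map_map]
    congr 1
    ext x
    simp [mul_assoc]

theorem cayley_factor {Γ : Type*} [Group Γ] [Countable Γ] (S : Set Γ)
    {μ : Measure ((mulCayley S).edgeSet → Bool)} (hμ : IsDeterminantal μ)
    (hinv : ∀ γ : Γ, μ.map (fun ω e => ω ((leftMul S γ⁻¹).mapEdgeSet e)) = μ) :
    IsGroupFactor S μ := by
  let _ := edgeAction S
  have : Countable (Sym2 Γ) := Quotient.countable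
  have hfin : FinStab Γ (mulCayley S).edgeSet := by
    rintro ⟨e, he⟩
    induction e with | _ a b
    refine Set.Finite.subset (Set.toFinite {(1 : Γ), b * a⁻¹}) fun γ hγ => ?_
    have h1 : Sym2.map (fun x => γ * x) s(a, b) = s(a, b) := by
      have h2 : γ • (⟨s(a, b), he⟩ : (mulCayley S).edgeSet) = ⟨s(a, b), he⟩ := hγ
      exact congrArg Subtype.val h2
    rw [Sym2.map_mk, Sym2.eq_iff] at h1
    simp only [Set.mem_insert_iff, Set.mem_singleton_iff]
    rcases h1 with ⟨h1, _⟩ | ⟨h1, _⟩
    · left
      exact mul_eq_right.1 h1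
    · right
      rw [eq_mul_inv_iff_mul_eq]
      exact h1
  exact isFactor_of_invariant hfin hμ hinv

end Group

end Vale.Agent.P143.H536
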